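import Vale.Agent.P231Z.Oct.Alg

/-! The points of the Cayley plane in homogeneous coordinates. -/

namespace Vale.Agent.P231Z

noncomputable section

attribute [local irreducible] omul oconj oip

/-- the matrix `p p*` -/
def outer (p : Fin 3 → Oct) : Alb := fun i j => omul (p i) (oconj (p j))

/-- the point with coordinates `(c, a, b)`, `c` real -/
def ver (c : ℝ) (a b : Oct) : Alb := outer ![oR c, a, b]

/-- the trace -/
def trA (X : Alb) : ℝ := ∑ i, (X i i).1.re

theorem mid_left (x z : Oct) :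
    omul (omul x (oconj x)) (omul x (oconj z)) = oip x x • omul x (oconj z) := by
  rw [omul_conj_self, omul_oR_left]

theorem mid_right (x z : Oct) :
    omul (omul x (oconj z)) (omul z (oconj z)) = oip z z • omul x (oconj z) := by
  rw [omul_conj_self, omul_oR_right]

theorem mid_out (x y : Oct) :
    omul (omul x (oconj y)) (omul y (oconj x)) = oip y y • omul x (oconj x) := by
  have h1 : omul y (oconj x) = oconj (omul x (oconj y)) := by rw [oconj_omul, oconj_oconj]
  rw [h1, omul_conj_self, oip_omul, oip_conj, omul_conj_self, smul_oR, mul_comm]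

theorem mid_r1 (c : ℝ) (y z : Oct) :
    omul (omul (oR c) (oconj y)) (omul y (oconj z)) = oip y y • omul (oR c) (oconj z) := by
  rw [omul_oR_left, omul_oR_left, omul_smul_left, conj_omul_omul, smul_comm]

theorem mid_r2 (c : ℝ) (x z : Oct) :
    omul (omul x (oconj (oR c))) (omul (oR c) (oconj z)) =
      oip (oR c) (oR c) • omul x (oconj z) := by
  rw [oconj_oR, omul_oR_left, omul_oR_right, omul_smul_left, omul_smul_right, smul_smul, oip_oR]

theorem mid_r3 (c : ℝ) (x y : Oct) :
    omul (omul x (oconj y)) (omul y (oconj (oR c))) = oip y y • omul x (oconj (oR c)) := by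
  rw [oconj_oR, omul_oR_right, omul_oR_right, omul_smul_right, omul_omul_conj, smul_comm]

theorem ver_mid (c : ℝ) (a b : Oct) (i j k : Fin 3) :
    omul (ver c a b i j) (ver c a b j k) =
      oip (![oR c, a, b] j) (![oR c, a, b] j) • ver c a b i k := by
  fin_cases i <;> fin_cases j <;> fin_cases k
  all_goals first
    | exact mid_left _ _
    | exact mid_right _ _
    | exact mid_out _ _
    | exact mid_r1 _ _ _
    | exact mid_r2 _ _ _
    | exact mid_r3 _ _ _

theorem trA_ver (c : ℝ) (a b : Oct) : trA (ver c a b) = c ^ 2 + oip a a + oip b b := by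
  unfold trA
  rw [Fin.sum_univ_three]
  show (omul (oR c) (oconj (oR c))).1.re + (omul a (oconj a)).1.re + (omul b (oconj b)).1.re = _
  rw [omul_conj_self, omul_conj_self, omul_conj_self, oR0, oR0, oR0, oip_oR, pow_two]

theorem ver_Ver {c : ℝ} {a b : Oct} (h : c ^ 2 + oip a a + oip b b = 1) : Ver (ver c a b) := by
  refine ⟨fun i j => ?_, fun i k => ?_, (trA_ver c a b).trans h⟩
  · unfold ver outer
    rw [oconj_omul, oconj_oconj]
  · have h0 : ∀ (r s : ℝ) (x : Oct), r • x + s • x = (r + s) • x := fun r s x =>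
      (add_smul r s x).symm
    rw [Fin.sum_univ_three, ver_mid, ver_mid, ver_mid, h0, h0]
    have h1 : oip (![oR c, a, b] 0) (![oR c, a, b] 0) + oip (![oR c, a, b] 1) (![oR c, a, b] 1) +
        oip (![oR c, a, b] 2) (![oR c, a, b] 2) = 1 := by
      show oip (oR c) (oR c) + oip a a + oip b b = 1
      rw [oip_oR, ← pow_two, h]
    rw [h1, one_smul]

theorem ipA_ver (c c' : ℝ) (a b a' b' : Oct) :
    ipA (ver c a b) (ver c' a' b') = c ^ 2 * c' ^ 2 + 2 * (c * c') * (oip a a' + oip b b') +
      (oip a a * oip a' a' + oip b b * oip b' b' +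
        2 * oip (omul a (oconj b)) (omul a' (oconj b'))) := by
  unfold ipA
  rw [Fin.sum_univ_three, Fin.sum_univ_three, Fin.sum_univ_three, Fin.sum_univ_three]
  have h1 : oip (omul b (oconj a)) (omul b' (oconj a')) =
      oip (omul a (oconj b)) (omul a' (oconj b')) := by
    rw [← oip_conj, oconj_omul, oconj_omul, oconj_oconj, oconj_oconj]
  show oip (omul (oR c) (oconj (oR c))) (omul (oR c') (oconj (oR c'))) +
      oip (omul (oR c) (oconj a)) (omul (oR c') (oconj a')) +
      oip (omul (oR c) (oconj b)) (omul (oR c') (oconj b')) +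
      (oip (omul a (oconj (oR c))) (omul a' (oconj (oR c'))) +
      oip (omul a (oconj a)) (omul a' (oconj a')) +
      oip (omul a (oconj b)) (omul a' (oconj b'))) +
      (oip (omul b (oconj (oR c))) (omul b' (oconj (oR c'))) +
      oip (omul b (oconj a)) (omul b' (oconj a')) +
      oip (omul b (oconj b)) (omul b' (oconj b'))) = _
  simp only [h1, omul_conj_self, oconj_oR, omul_oR_left, omul_oR_right, oip_smul_left,
    oip_smul_right, oip_conj, oip_oR]
  ring

/-- the identity matrix -/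
def idA : Alb := fun i j => if i = j then oR 1 else 0

theorem ipA_idA (X : Alb) : ipA X idA = trA X := by
  unfold ipA trA
  refine Finset.sum_congr rfl fun i _ => ?_
  rw [Finset.sum_eq_single i]
  · unfold idA
    rw [if_pos rfl, oip_oR_right, mul_one]
  · intro j _ hj
    unfold idA
    rw [if_neg hj.symm, oip_zero_right]
  · intro h
    exact absurd (Finset.mem_univ i) h

theorem trA_idA : trA idA = 3 := by
  unfold trA idA
  simp only [if_true, oR0]
  simp

theorem ipA_comm (X Y : Alb) : ipA X Y = ipA Y X := by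
  unfold ipA
  simp only [oip_comm (X _ _)]

theorem ipA_add_right (X Y Z : Alb) : ipA X (Y + Z) = ipA X Y + ipA X Z := by
  unfold ipA
  simp only [Pi.add_apply, oip_add_right, Finset.sum_add_distrib]

theorem ipA_add_left (X Y Z : Alb) : ipA (X + Y) Z = ipA X Z + ipA Y Z := by
  rw [ipA_comm, ipA_add_right, ipA_comm X, ipA_comm Y]

theorem ipA_smul_right (r : ℝ) (X Y : Alb) : ipA X (r • Y) = r * ipA X Y := by
  unfold ipA
  simp only [Pi.smul_apply, oip_smul_right, Finset.mul_sum]

theorem ipA_smul_left (r : ℝ) (X Y : Alb) : ipA (r • X) Y = r * ipA X Y := by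
  rw [ipA_comm, ipA_smul_right, ipA_comm]

theorem ipA_self_eq_zero {X : Alb} (h : ipA X X = 0) : X = 0 := by
  unfold ipA at h
  have h1 := (Finset.sum_eq_zero_iff_of_nonneg fun i _ =>
    Finset.sum_nonneg fun j _ => oip_self_nonneg (X i j)).1 h
  funext i j
  have h2 := (Finset.sum_eq_zero_iff_of_nonneg fun j _ => oip_self_nonneg (X i j)).1
    (h1 i (Finset.mem_univ i)) j (Finset.mem_univ j)
  exact oip_self_eq_zero h2

theorem eq_of_ipA {X Y : Alb} (h : ipA X X - 2 * ipA X Y + ipA Y Y = 0) : X = Y := by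
  have h1 : X + (-1 : ℝ) • Y = 0 := by
    apply ipA_self_eq_zero
    rw [ipA_add_left, ipA_add_right, ipA_add_right, ipA_smul_left, ipA_smul_right, ipA_smul_left,
      ipA_smul_right, ipA_comm Y X]
    linarith
  have h2 : (-1 : ℝ) • Y = -Y := neg_one_smul ℝ Y
  rw [h2, ← sub_eq_add_neg, sub_eq_zero] at h1
  exact h1

/-- three orthogonal points add up to the identity -/
theorem frame_sum {X Y Z : Alb} (hX : ipA X X = 1) (hY : ipA Y Y = 1) (hZ : ipA Z Z = 1)
    (tX : trA X = 1) (tY : trA Y = 1) (tZ : trA Z = 1) (hXY : ipA X Y = 0) (hXZ : ipA X Z = 0)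
    (hYZ : ipA Y Z = 0) (W : Alb) : ipA W X + ipA W Y + ipA W Z = trA W := by
  have h1 : X + Y + Z = idA := by
    apply eq_of_ipA
    rw [ipA_idA idA, trA_idA, ipA_add_left _ _ idA, ipA_add_left _ _ idA, ipA_idA, ipA_idA,
      ipA_idA, tX, tY, tZ]
    simp only [ipA_add_left, ipA_add_right, ipA_comm Y X, ipA_comm Z X, ipA_comm Z Y,
      hX, hY, hZ, hXY, hXZ, hYZ]
    norm_num
  rw [← ipA_add_right, ← ipA_add_right, h1, ipA_idA]

theorem eq_oR_of_conj {x : Oct} (h : x = oconj x) : x = oR x.1.re := by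
  have h1 := congrArg (fun y : Oct => y.1.imI) h
  have h2 := congrArg (fun y : Oct => y.1.imJ) h
  have h3 := congrArg (fun y : Oct => y.1.imK) h
  have h4 := congrArg (fun y : Oct => y.2.re) h
  have h5 := congrArg (fun y : Oct => y.2.imI) h
  have h6 := congrArg (fun y : Oct => y.2.imJ) h
  have h7 := congrArg (fun y : Oct => y.2.imK) h
  simp only [oconj1, oconj2, oconj3, oconj4, oconj5, oconj6, oconj7] at h1 h2 h3 h4 h5 h6 h7
  refine oct_ext rfl ?_ ?_ ?_ ?_ ?_ ?_ ?_
  · rw [oR1]; linarith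
  · rw [oR2]; linarith
  · rw [oR3]; linarith
  · rw [oR4]; linarith
  · rw [oR5]; linarith
  · rw [oR6]; linarith
  · rw [oR7]; linarith

theorem omul_zero_left (x : Oct) : omul 0 x = 0 := by
  have h := omul_smul_left 0 x x
  have h0 : ∀ x : Oct, (0 : ℝ) • x = 0 := fun x => zero_smul ℝ x
  rwa [h0, h0] at h

theorem omul_zero_right (x : Oct) : omul x 0 = 0 := by
  have h := omul_smul_right 0 x x
  have h0 : ∀ x : Oct, (0 : ℝ) • x = 0 := fun x => zero_smul ℝ x
  rwa [h0, h0] at h

theorem oR_zero : oR 0 = 0 := rfl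

/-- a Hermitian matrix is determined by the entries on and above the diagonal -/
theorem herm_ext {X Y : Alb} (hX : ∀ i j, X j i = oconj (X i j)) (hY : ∀ i j, Y j i = oconj (Y i j))
    (h00 : X 0 0 = Y 0 0) (h11 : X 1 1 = Y 1 1) (h22 : X 2 2 = Y 2 2) (h01 : X 0 1 = Y 0 1)
    (h02 : X 0 2 = Y 0 2) (h12 : X 1 2 = Y 1 2) : X = Y := by
  funext i j
  fin_cases i <;> fin_cases j
  · exact h00
  · exact h01
  · exact h02
  · exact (hX 0 1).trans ((congrArg oconj h01).trans (hY 0 1).symm)
  · exact h11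
  · exact h12
  · exact (hX 0 2).trans ((congrArg oconj h02).trans (hY 0 2).symm)
  · exact (hX 1 2).trans ((congrArg oconj h12).trans (hY 1 2).symm)
  · exact h22

/-- every point has homogeneous coordinates with a nonnegative real first entry -/
theorem exists_ver {X : Alb} (h : Ver X) :
    ∃ (c : ℝ) (a b : Oct), 0 ≤ c ∧ c ^ 2 + oip a a + oip b b = 1 ∧ ver c a b = X := by
  obtain ⟨h1, h2, h3⟩ := h
  rw [Fin.sum_univ_three] at h3
  obtain ⟨l0, hl0⟩ : ∃ l, X 0 0 = oR l := ⟨_, eq_oR_of_conj (h1 0 0)⟩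
  obtain ⟨l1, hl1⟩ : ∃ l, X 1 1 = oR l := ⟨_, eq_oR_of_conj (h1 1 1)⟩
  obtain ⟨l2, hl2⟩ : ∃ l, X 2 2 = oR l := ⟨_, eq_oR_of_conj (h1 2 2)⟩
  rw [hl0, hl1, hl2, oR0, oR0, oR0] at h3
  set x := X 0 1 with hx
  set y := X 0 2 with hy
  set z := X 1 2 with hz
  have e00 := h2 0 0
  have e11 := h2 1 1
  have e22 := h2 2 2
  have e12 := h2 1 2
  rw [Fin.sum_univ_three] at e00 e11 e22 e12
  rw [h1 0 1, h1 0 2, hl0, ← hx, ← hy, omul_conj_self, omul_conj_self, omul_oR_left] at e00
  rw [h1 0 1, h1 1 2, hl1, ← hx, ← hz, omul_conj_self, omul_oR_left] at e11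
  rw [h1 0 2, h1 1 2, hl2, ← hy, ← hz, omul_oR_left] at e22
  rw [h1 0 1, hl1, hl2, ← hx, ← hy, ← hz, omul_oR_left, omul_oR_right] at e12
  have c1 : ∀ w : Oct, omul (oconj w) w = oR (oip w w) := fun w => by
    have := omul_conj_self (oconj w)
    rwa [oconj_oconj, oip_conj] at this
  rw [c1] at e11 e22
  rw [c1] at e22
  have f0 := congrArg (fun w : Oct => w.1.re) e00
  have f1 := congrArg (fun w : Oct => w.1.re) e11
  have f2 := congrArg (fun w : Oct => w.1.re) e22
  simp only [oad0, osm0, oR0] at f0 f1 f2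
  have nx : oip x x = l0 * l1 := by
    have : l2 = 1 - l0 - l1 := by linarith
    subst this
    nlinarith
  have ny : oip y y = l0 * l2 := by
    have : l2 = 1 - l0 - l1 := by linarith
    subst this
    nlinarith
  have nz : oip z z = l1 * l2 := by
    have : l2 = 1 - l0 - l1 := by linarith
    subst this
    nlinarith
  have g12 : omul (oconj x) y = l0 • z := by
    have h4 : l0 = 1 - l1 - l2 := by linarith
    rw [h4]
    linear_combination (norm := module) e12
  have px := oip_self_nonneg x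
  have py := oip_self_nonneg y
  have pz := oip_self_nonneg z
  have hl0' : 0 ≤ l0 := by nlinarith
  have hl1' : 0 ≤ l1 := by nlinarith
  have hv : ∀ c a b i j, ver c a b j i = oconj (ver c a b i j) := fun c a b i j => by
    unfold ver outer
    rw [oconj_omul, oconj_oconj]
  rcases hl0'.eq_or_lt with h0 | h0
  · subst h0
    have hx0 : x = 0 := oip_self_eq_zero (by rw [nx, zero_mul])
    have hy0 : y = 0 := oip_self_eq_zero (by rw [ny, zero_mul])
    rcases hl1'.eq_or_lt with h4 | h4
    · subst h4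
      have hz0 : z = 0 := oip_self_eq_zero (by rw [nz, zero_mul])
      have h5 : l2 = 1 := by linarith
      refine ⟨0, 0, oR 1, le_rfl, by rw [oip_zero_left, oip_oR]; norm_num, ?_⟩
      refine herm_ext (hv _ _ _) h1 ?_ ?_ ?_ ?_ ?_ ?_
      · exact (omul_zero_left _).trans hl0.symm
      · exact (omul_zero_left _).trans hl1.symm
      · show omul (oR 1) (oconj (oR 1)) = _
        rw [hl2, h5, omul_conj_self, oip_oR, one_mul]
      · exact (omul_zero_left _).trans hx0.symm
      · exact (omul_zero_left _).trans hy0.symm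
      · exact (omul_zero_left _).trans hz0.symm
    · have hs : 0 < √l1 := Real.sqrt_pos.2 h4
      have hss : √l1 * √l1 = l1 := Real.mul_self_sqrt h4.le
      have h5 : oip ((√l1)⁻¹ • oconj z) ((√l1)⁻¹ • oconj z) = l2 := by
        have hi : (√l1)⁻¹ * ((√l1)⁻¹ * l1) = 1 := by
          rw [← mul_assoc, ← mul_inv, hss, inv_mul_cancel₀ h4.ne']
        rw [oip_smul_left, oip_smul_right, oip_conj, nz]
        linear_combination l2 * hi
      refine ⟨0, oR √l1, (√l1)⁻¹ • oconj z, le_rfl, ?_, ?_⟩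
      · rw [h5, oip_oR, hss]
        linarith
      refine herm_ext (hv _ _ _) h1 ?_ ?_ ?_ ?_ ?_ ?_
      · exact (omul_zero_left _).trans hl0.symm
      · show omul (oR √l1) (oconj (oR √l1)) = _
        rw [hl1, omul_conj_self, oip_oR, hss]
      · show omul ((√l1)⁻¹ • oconj z) (oconj ((√l1)⁻¹ • oconj z)) = _
        rw [hl2, omul_conj_self, h5]
      · exact (omul_zero_left _).trans hx0.symm
      · exact (omul_zero_left _).trans hy0.symm
      · show omul (oR √l1) (oconj ((√l1)⁻¹ • oconj z)) = z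
        rw [omul_oR_left, oconj_smul, oconj_oconj, smul_smul, mul_inv_cancel₀ hs.ne', one_smul]
  · have hs : 0 < √l0 := Real.sqrt_pos.2 h0
    have hss : √l0 * √l0 = l0 := Real.mul_self_sqrt h0.le
    have hi : (√l0)⁻¹ * ((√l0)⁻¹ * l0) = 1 := by
      rw [← mul_assoc, ← mul_inv, hss, inv_mul_cancel₀ h0.ne']
    have h5 : oip ((√l0)⁻¹ • oconj x) ((√l0)⁻¹ • oconj x) = l1 := by
      rw [oip_smul_left, oip_smul_right, oip_conj, nx]
      linear_combination l1 * hi
    have h6 : oip ((√l0)⁻¹ • oconj y) ((√l0)⁻¹ • oconj y) = l2 := by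
      rw [oip_smul_left, oip_smul_right, oip_conj, ny]
      linear_combination l2 * hi
    refine ⟨√l0, (√l0)⁻¹ • oconj x, (√l0)⁻¹ • oconj y, hs.le, ?_, ?_⟩
    · rw [h5, h6, pow_two, hss, h3]
    refine herm_ext (hv _ _ _) h1 ?_ ?_ ?_ ?_ ?_ ?_
    · show omul (oR √l0) (oconj (oR √l0)) = _
      rw [hl0, omul_conj_self, oip_oR, hss]
    · show omul ((√l0)⁻¹ • oconj x) (oconj ((√l0)⁻¹ • oconj x)) = _
      rw [hl1, omul_conj_self, h5]
    · show omul ((√l0)⁻¹ • oconj y) (oconj ((√l0)⁻¹ • oconj y)) = _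
      rw [hl2, omul_conj_self, h6]
    · show omul (oR √l0) (oconj ((√l0)⁻¹ • oconj x)) = x
      rw [omul_oR_left, oconj_smul, oconj_oconj, smul_smul, mul_inv_cancel₀ hs.ne', one_smul]
    · show omul (oR √l0) (oconj ((√l0)⁻¹ • oconj y)) = y
      rw [omul_oR_left, oconj_smul, oconj_oconj, smul_smul, mul_inv_cancel₀ hs.ne', one_smul]
    · show omul ((√l0)⁻¹ • oconj x) (oconj ((√l0)⁻¹ • oconj y)) = z
      rw [oconj_smul, oconj_oconj, omul_smul_left, omul_smul_right, g12, smul_smul, smul_smul,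
        mul_assoc, hi, one_smul]

end

end Vale.Agent.P231Z
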