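import Vale.Agent.P231Z.Oct.Law
import Vale.Agent.P231Z.Oct.Ver
import Vale.Agent.P231Z.Sph.Frame
import Vale.Agent.P231.QF.QT

/-! P231: a rigid Blaschke manifold of dimension sixteen and cut multiplicity seven is isometric to
the Cayley projective plane. -/

set_option maxSynthPendingDepth 3
set_option linter.unusedSectionVars false

open Bundle Manifold Set Filter Module
open scoped ContDiff Manifold Topology

namespace Vale.Agent.P231Z

noncomputable section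

open Vale.Agent.P234 Vale.Agent.P231 Vale.Agent.P231.H703 Vale.Agent.P231.H775
  Vale.Agent.P231.H512 Vale.Agent.P231.WR

variable {E : Type*} [NormedAddCommGroup E] [NormedSpace ℝ E] [FiniteDimensional ℝ E]
  {M : Type*} [MetricSpace M] [ChartedSpace E M]
  [RiemannianBundle (fun x : M => TangentSpace 𝓘(ℝ, E) x)]
  [IsManifold 𝓘(ℝ, E) ∞ M]
  [IsContMDiffRiemannianBundle 𝓘(ℝ, E) ∞ E (fun x : M => TangentSpace 𝓘(ℝ, E) x)]
  {e : ∀ x : M, TangentSpace 𝓘(ℝ, E) x → M}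
  [CompactSpace M] [ConnectedSpace M] [IsRiemannianManifold 𝓘(ℝ, E) M]

/-- the exponential map in orthonormal coordinates -/
def ex (e : ∀ x : M, TangentSpace 𝓘(ℝ, E) x → M) (p : M) (v : Eu E) : M := e p (frI p v)

theorem continuous_ex (F : Facts e) (p : M) : Continuous (ex e p) :=
  (contMDiff_exp_fiber F.isExp p).continuous.comp (frI (E := E) p).continuous

theorem dist_ex {D : ℝ} {l : ℕ} (R : Rig e D l) (p : M) {v : Eu E} (hv : ‖v‖ ≤ D) :
    dist p (ex e p v) = ‖v‖ := by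
  have h1 : ‖frI (E := E) p v‖ = ‖v‖ := (frI (E := E) p).norm_map v
  exact (R.inj p (frI p v) (h1.trans_le hv)).trans h1

theorem exists_ex {D : ℝ} {l : ℕ} (R : Rig e D l) (p x : M) :
    ∃ v : Eu E, ‖v‖ ≤ D ∧ ex e p v = x := by
  obtain ⟨w, hw, hd⟩ := R.facts.hopfRinow p x
  obtain ⟨w', hw', hd'⟩ : ∃ w' : E, e p w' = x ∧ dist p x = nm p w' := ⟨w, hw, hd⟩
  refine ⟨(fr p).symm w', ?_, ?_⟩
  · rw [← sph_nm_symm, ← hd']
    exact R.diam p x
  · show e p (fr p ((fr p).symm w') : E) = x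
    rw [(fr p).apply_symm_apply, hw']

theorem ccD {D : ℝ} (hD : 0 < D) : Real.pi / (2 * D) * D = Real.pi / 2 := by
  field_simp

/-- the length estimate -/
theorem lengthEst {D : ℝ} {l : ℕ} (R : Rig e D l) {p : M} {P : E → E →ₗ[ℝ] E}
    (hP : PData e D l p P) {B : Eu E →ₗ[ℝ] Eu E →ₗ[ℝ] Eu E →ₗ[ℝ] Eu E →ₗ[ℝ] ℝ}
    (hB : QData (trP p P) B) : LE (Real.pi / (2 * D)) (TQ B) (ex e p) := by
  intro η η' θ hθ h
  have hD := R.pos
  have hcD := ccD hD
  have h9 : ∀ r : ℝ, Real.pi * r / (2 * D) = Real.pi / (2 * D) * r := fun r => by ring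
  obtain ⟨c, hcd⟩ : ∃ c, Real.pi / (2 * D) = c := ⟨_, rfl⟩
  have hc : 0 < c := by
    rw [← hcd]
    have := Real.pi_pos
    positivity
  rw [hcd] at h h9 hcD ⊢
  let L : Eu E →L[ℝ] TangentSpace 𝓘(ℝ, E) p := (frI (E := E) p).toContinuousLinearMap
  have h1 := symm_dist_le_of_speed (E := E) (c := fun s => ex e p (η s)) (ℓ := 1 / c) hθ
    (by positivity)
    (fun t ht => by
      have h10 : ContMDiffAt 𝓘(ℝ, ℝ) 𝓘(ℝ, TangentSpace 𝓘(ℝ, E) p) 1 (fun s => L (η s)) t :=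
        (L.contDiff.contDiffAt.comp t
          ((h t ht).1.of_le (by simp only [WithTop.one_le_coe, le_top]))).contMDiffAt
      exact ((contMDiff_exp_fiber R.facts.isExp p).contMDiffAt.of_le
        (by simp only [WithTop.one_le_coe, le_top])).comp t h10)
    (fun t ht => by
      obtain ⟨-, s1, s2, s3, s4⟩ := h t ht
      have hLη : HasDerivAt (fun s => L (η s)) (L (η' t)) t :=
        L.hasFDerivAt.comp_hasDerivAt t s1
      have h10 : (mfderiv 𝓘(ℝ, ℝ) 𝓘(ℝ, E) (fun s => ex e p (η s)) t (1 : ℝ) : E) =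
          dE e p (fr p (η t)) (fr p (η' t)) := mfderiv_exp_curve R.facts.isExp p hLη
      have h11 : nm (E := E) (ex e p (η t))
            (mfderiv 𝓘(ℝ, ℝ) 𝓘(ℝ, E) (fun s => ex e p (η s)) t (1 : ℝ)) =
          nm (E := E) (e p (fr p (η t) : E)) (dE (E := E) e p (fr p (η t)) (fr p (η' t))) :=
        congrArg (nm (E := E) (ex e p (η t))) h10
      refine h11.trans_le ?_
      obtain ⟨ρ, hρ⟩ : ∃ ρ, ‖η t‖ = ρ := ⟨_, rfl⟩
      have hρ0 : 0 < ρ := by
        rw [← hρ]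
        exact norm_pos_iff.2 s2
      have hρD : ρ < D := by
        rw [hρ, ← hcD] at s3
        exact lt_of_mul_lt_mul_left s3 hc.le
      obtain ⟨x, hx, hx1⟩ : ∃ x : Eu E, η t = ρ • x ∧ ‖x‖ = 1 :=
        ⟨ρ⁻¹ • η t, by rw [smul_smul, mul_inv_cancel₀ hρ0.ne', one_smul], by
          rw [norm_smul, hρ, norm_inv, Real.norm_of_nonneg hρ0.le, inv_mul_cancel₀ hρ0.ne']⟩
      have h2 := s4 ρ _ x hρ hx hx1 rfl
      have h3 := metric_formula R.facts hP (u := fr p x) (by rw [nm_fr, hx1]) ⟨hρ0, hρD⟩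
        (fr p (η' t))
      rw [ip_fr, h9, ← map_smul, ← map_smul, ← map_sub, nm_fr, ← sph_fr_trP, nm_fr, ← hx] at h3
      generalize η' t = y at *
      have h4 : (inner ℝ x (y - (inner ℝ x y : ℝ) • x) : ℝ) = 0 := by
        rw [inner_sub_right, real_inner_smul_right, inner_unit hx1, mul_one, sub_self]
      have h5 : (inner ℝ (TQ B x x (y - (inner ℝ x y : ℝ) • x)) (y - (inner ℝ x y : ℝ) • x) : ℝ) =
          ‖trP p P x (y - (inner ℝ x y : ℝ) • x)‖ ^ 2 := by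
        rw [TQ_unit hB hx1, h4, zero_smul, zero_add, ← real_inner_self_eq_norm_sq,
          ← hB.symm x (trP p P x _) _ hx1, hB.idem x _ hx1]
      rw [h5] at h2
      have h6 : (c * nm (E := E) (e p (fr p (η t) : E))
          (dE (E := E) e p (fr p (η t)) (fr p y))) ^ 2 ≤ 1 := by
        rw [mul_pow, h3]
        refine le_trans (le_of_eq ?_) h2
        field_simp
      rw [le_div_iff₀ hc, mul_comm]
      exact (sq_le_one_iff₀ (mul_nonneg hc.le (nm_nonneg _ _))).1 h6)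
  rw [sub_zero, one_div, le_inv_mul_iff₀ hc] at h1
  exact h1

/-- the chart centred at a point -/
theorem exists_chart {D : ℝ} (R : Rig e D 7) (hdim : finrank ℝ E = 16) (p : M) :
    ∃ Z : Eu E → Alb, (∀ v, Ver (Z v)) ∧ (∀ v, ipA (Z v) (Z v) = 1) ∧
      (∀ v w, 0 ≤ ipA (Z v) (Z w)) ∧
      (∀ v w, ‖v‖ ≤ D → ‖w‖ ≤ D → ipA (Z v) (Z w) ≤
        Real.cos (Real.pi / (2 * D) * dist (ex e p v) (ex e p w)) ^ 2) ∧
      (∀ w, ipA (Z 0) (Z w) = Real.cos (Real.pi / (2 * D) * ‖w‖) ^ 2) ∧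
      ∀ X, Ver X → ∃ v, ‖v‖ ≤ D ∧ Z v = X := by
  obtain ⟨P, hP⟩ := R.proj
  obtain ⟨B, hB⟩ := exists_form R.facts R.pos (hP p)
  have hr : ∀ u : Eu E, ‖u‖ = 1 → finrank ℝ (LinearMap.range (trP p (P p) u)) = 7 :=
    fun u hu => (hP p).sph_rank hu
  have hT : OT (TQ B) := TQ_OT hB hr fun u u' w hu hu' huu' =>
    QF.PData.proj_eq' R.facts R.pos R.closed hP R.symm p u u' w hu hu' huu'
  have hrank : ∀ u : Eu E, ‖u‖ = 1 → finrank ℝ (LinearMap.range (TQ B u u)) = 8 :=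
    fun u hu => TQ_rank hB hr hu
  have hd : finrank ℝ (Eu E) = 16 := by rw [finrank_euclideanSpace_fin, hdim]
  have hL := lengthEst R (hP p) hB
  have hD := R.pos
  have hcD := ccD hD
  obtain ⟨c, hcd⟩ : ∃ c, Real.pi / (2 * D) = c := ⟨_, rfl⟩
  have hc : 0 < c := by
    rw [← hcd]
    have := Real.pi_pos
    positivity
  rw [hcd] at hL hcD ⊢
  obtain ⟨Ψ, h1, h2, h3⟩ := hT.exists_coord hrank hd
  choose g hg using h1
  have hK : ∀ v w : Eu E, ipA (ver (Real.cos (c * ‖v‖)) (g (aa c v)).1 (g (aa c v)).2)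
      (ver (Real.cos (c * ‖w‖)) (g (aa c w)).1 (g (aa c w)).2) = KK c (TQ B) v w := by
    intro v w
    rw [ipA_ver, ← h2, ← h3, hg, hg]
    rfl
  have hle : ∀ v : Eu E, ‖v‖ ≤ D → c * ‖v‖ ≤ Real.pi / 2 := fun v hv => by
    rw [← hcD]
    exact mul_le_mul_of_nonneg_left hv hc.le
  refine ⟨fun v => ver (Real.cos (c * ‖v‖)) (g (aa c v)).1 (g (aa c v)).2, fun v => ?_,
    fun v => ?_, fun v w => ?_, fun v w hv hw => ?_, fun w => ?_, fun X hX => ?_⟩
  · refine ver_Ver ?_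
    rw [add_assoc, ← h2, hg, inner_aa hc.ne', Real.cos_sq_add_sin_sq]
  · rw [hK, KK_self hT hc.ne']
  · rw [hK]
    exact KK_nonneg hT c v w
  · rw [hK]
    exact law hT hrank hd hc (continuous_ex R.facts p) hL (hle v hv) (hle w hw)
  · rw [hK, KK_zero]
  · obtain ⟨c₀, a, b, h4, h5, h6⟩ := exists_ver hX
    have h7 : ‖Ψ (a, b)‖ ^ 2 = 1 - c₀ ^ 2 := by
      rw [← real_inner_self_eq_norm_sq, h2]
      linarith
    have h8 : c₀ ≤ 1 := by nlinarith [sq_nonneg ‖Ψ (a, b)‖]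
    have hinj : ∀ y, Ψ (a, b) = y → g y = (a, b) := by
      intro y hy
      have i1 := h2 (g y) (g y)
      have i2 := h2 (g y) (a, b)
      have i3 := h2 (a, b) (a, b)
      rw [hg] at i1 i2
      rw [hy] at i2 i3
      have i4 : ∀ s t : Oct, oip (s + (-1 : ℝ) • t) (s + (-1 : ℝ) • t) =
          oip s s - 2 * oip s t + oip t t := fun s t => by
        rw [oip_add_left, oip_add_right, oip_add_right, oip_smul_left, oip_smul_right,
          oip_smul_left, oip_smul_right, oip_comm t s]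
        ring
      have i5 : ∀ s t : Oct, oip (s + (-1 : ℝ) • t) (s + (-1 : ℝ) • t) = 0 → s = t :=
        fun s t h0 => by
          have i6 := oip_self_eq_zero h0
          have i7 : (-1 : ℝ) • t = -t := neg_one_smul ℝ t
          rwa [i7, ← sub_eq_add_neg, sub_eq_zero] at i6
      have j1 := oip_self_nonneg ((g y).1 + (-1 : ℝ) • a)
      have j2 := oip_self_nonneg ((g y).2 + (-1 : ℝ) • b)
      have j3 := i4 (g y).1 a
      have j4 := i4 (g y).2 b
      simp only at i2 i3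
      exact Prod.ext (i5 _ _ (by linarith)) (i5 _ _ (by linarith))
    obtain ⟨v, hv1, hv2, hv3⟩ : ∃ v : Eu E, ‖v‖ ≤ D ∧ Real.cos (c * ‖v‖) = c₀ ∧
        aa c v = Ψ (a, b) := by
      rcases eq_or_ne (Ψ (a, b)) 0 with h9 | h9
      · rw [h9, norm_zero] at h7
        refine ⟨0, by rw [norm_zero]; exact hD.le, ?_, by rw [aa_zero, h9]⟩
        rw [norm_zero, mul_zero, Real.cos_zero]
        nlinarith
      · have hn : 0 < ‖Ψ (a, b)‖ := norm_pos_iff.2 h9
        have h10 : c₀ < 1 := by nlinarith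
        have hθ : 0 < Real.arccos c₀ := Real.arccos_pos.2 h10
        have hu : ‖‖Ψ (a, b)‖⁻¹ • Ψ (a, b)‖ = 1 := by
          rw [norm_smul, norm_inv, norm_norm, inv_mul_cancel₀ hn.ne']
        have h11 : c * (Real.arccos c₀ / c) = Real.arccos c₀ := by field_simp
        have h12 : ‖(Real.arccos c₀ / c) • ‖Ψ (a, b)‖⁻¹ • Ψ (a, b)‖ = Real.arccos c₀ / c := by
          rw [norm_smul, hu, mul_one, Real.norm_of_nonneg (by positivity)]
        refine ⟨(Real.arccos c₀ / c) • ‖Ψ (a, b)‖⁻¹ • Ψ (a, b), ?_, ?_, ?_⟩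
        · rw [h12, div_le_iff₀ hc, mul_comm, hcD, Real.arccos_le_pi_div_two]
          exact h4
        · rw [h12, h11, Real.cos_arccos (by linarith) h8]
        · rw [aa_polar hc.ne' hu (by positivity), h11, Real.sin_arccos, ← h7,
            Real.sqrt_sq hn.le, smul_smul, mul_inv_cancel₀ hn.ne', one_smul]
    refine ⟨v, hv1, ?_⟩
    show ver (Real.cos (c * ‖v‖)) (g (aa c v)).1 (g (aa c v)).2 = X
    rw [hv2, hinj _ hv3.symm, h6]

/-- every point lies in a triple of points at maximal distance -/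
theorem exists_frame {D : ℝ} (R : Rig e D 7) (hdim : finrank ℝ E = 16) (y : M) :
    ∃ y₁ y₂ : M, dist y y₁ = D ∧ dist y y₂ = D ∧ dist y₁ y₂ = D := by
  obtain ⟨P, hP⟩ := R.proj
  obtain ⟨B, hB⟩ := exists_form R.facts R.pos (hP y)
  have hr : ∀ u : Eu E, ‖u‖ = 1 → finrank ℝ (LinearMap.range (trP y (P y) u)) = 7 :=
    fun u hu => (hP y).sph_rank hu
  have hT : OT (TQ B) := TQ_OT hB hr fun u u' w hu hu' huu' =>
    QF.PData.proj_eq' R.facts R.pos R.closed hP R.symm y u u' w hu hu' huu'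
  have hrank : ∀ u : Eu E, ‖u‖ = 1 → finrank ℝ (LinearMap.range (TQ B u u)) = 8 :=
    fun u hu => TQ_rank hB hr hu
  have hd : finrank ℝ (Eu E) = 16 := by rw [finrank_euclideanSpace_fin, hdim]
  obtain ⟨u, hu, -⟩ := exists_orth (W := Eu E) (k := 0) ![] (by omega)
  obtain ⟨n, hn1, -⟩ := exists_orth (W := LinearMap.ker (TQ B u u)) (k := 0) ![]
    (by rw [ker_rank hrank hd hu]; norm_num)
  have hn : TQ B u u (n : Eu E) = 0 := n.2
  have hn1' : ‖(n : Eu E)‖ = 1 := norm_unit (V := Eu E) hn1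
  have h1 := hT.orth hn
  have h2 : trP y (P y) u n = 0 := by
    rwa [TQ_unit hB (norm_unit hu), h1, zero_smul, zero_add] at hn
  have a1 : nm y (fr y u) = 1 := by rw [nm_fr, norm_unit hu]
  have a2 : nm y (fr y (n : Eu E)) = 1 := by rw [nm_fr, hn1']
  exact ⟨_, _, dist_end R y a1, dist_end R y a2, frame_dist R hP y a1 a2 (by rw [ip_fr, h1])
    (by rw [← sph_fr_trP, h2, map_zero])⟩

/-- **A rigid Blaschke manifold of dimension sixteen and cut multiplicity seven is isometric to the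
Cayley projective plane.** -/
theorem isometric_op2 {D : ℝ} (R : Rig e D 7) (hdim : finrank ℝ E = 16) :
    ∃ Z : M → Alb, (∀ x, Ver (Z x)) ∧
      (∀ x y, dist x y = 2 * D / Real.pi * Real.arccos (√(ipA (Z x) (Z y)))) ∧
      ∀ X, Ver X → ∃ x, Z x = X := by
  have hD := R.pos
  have hpi := Real.pi_pos
  have hcD := ccD hD
  choose Z h1 h2 h3 h4 h5 h6 using exists_chart R hdim
  -- frames
  have hfr : ∀ (p : M) (w₀ w₁ w₂ : Eu E), ‖w₀‖ ≤ D → ‖w₁‖ ≤ D → ‖w₂‖ ≤ D →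
      dist (ex e p w₀) (ex e p w₁) = D → dist (ex e p w₀) (ex e p w₂) = D →
      dist (ex e p w₁) (ex e p w₂) = D → ∀ v,
      ipA (Z p v) (Z p w₀) + ipA (Z p v) (Z p w₁) + ipA (Z p v) (Z p w₂) = 1 := by
    intro p w₀ w₁ w₂ n₀ n₁ n₂ d₁ d₂ d₃ v
    have h0 : ∀ w w' : Eu E, ‖w‖ ≤ D → ‖w'‖ ≤ D → dist (ex e p w) (ex e p w') = D →
        ipA (Z p w) (Z p w') = 0 := by
      intro w w' hw hw' hd
      have h7 := h4 p w w' hw hw'
      rw [hd, hcD, Real.cos_pi_div_two] at h7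
      exact le_antisymm (by simpa using h7) (h3 p w w')
    exact (frame_sum (h2 p w₀) (h2 p w₁) (h2 p w₂) (h1 p w₀).2.2 (h1 p w₁).2.2 (h1 p w₂).2.2
      (h0 _ _ n₀ n₁ d₁) (h0 _ _ n₀ n₂ d₂) (h0 _ _ n₁ n₂ d₃) _).trans (h1 p v).2.2
  have heq : ∀ (p : M) (v w : Eu E), ‖v‖ ≤ D → ‖w‖ ≤ D → ipA (Z p v) (Z p w) =
      Real.cos (Real.pi / (2 * D) * dist (ex e p v) (ex e p w)) ^ 2 := by
    intro p v w hv hw
    obtain ⟨y₁, y₂, d₁, d₂, d₃⟩ := exists_frame R hdim (ex e p w)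
    obtain ⟨w₁, n₁, rfl⟩ := exists_ex R p y₁
    obtain ⟨w₂, n₂, rfl⟩ := exists_ex R p y₂
    obtain ⟨z₀, m₀, e₀⟩ := exists_ex R (ex e p v) (ex e p w)
    obtain ⟨z₁, m₁, e₁⟩ := exists_ex R (ex e p v) (ex e p w₁)
    obtain ⟨z₂, m₂, e₂⟩ := exists_ex R (ex e p v) (ex e p w₂)
    have a1 := hfr p w w₁ w₂ hw n₁ n₂ d₁ d₂ d₃ v
    have a2 := hfr (ex e p v) z₀ z₁ z₂ m₀ m₁ m₂ (by rw [e₀, e₁, d₁]) (by rw [e₀, e₂, d₂])
      (by rw [e₁, e₂, d₃]) 0
    rw [h5, h5, h5, ← dist_ex R (ex e p v) m₀, ← dist_ex R (ex e p v) m₁,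
      ← dist_ex R (ex e p v) m₂, e₀, e₁, e₂] at a2
    have b0 := h4 p v w hv hw
    have b1 := h4 p v w₁ hv n₁
    have b2 := h4 p v w₂ hv n₂
    linarith
  obtain ⟨p⟩ : Nonempty M := inferInstance
  choose g hg1 hg2 using exists_ex R p
  refine ⟨fun x => Z p (g x), fun x => h1 p _, fun x y => ?_, fun X hX => ?_⟩
  · have h7 : 0 ≤ Real.pi / (2 * D) * dist x y := by positivity
    have h8 : Real.pi / (2 * D) * dist x y ≤ Real.pi / 2 := by
      have h9 := mul_le_mul_of_nonneg_left (R.diam x y) (show 0 ≤ Real.pi / (2 * D) by positivity)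
      rwa [hcD] at h9
    rw [heq p _ _ (hg1 x) (hg1 y), hg2, hg2, Real.sqrt_sq
      (Real.cos_nonneg_of_neg_pi_div_two_le_of_le (by linarith) h8),
      Real.arccos_cos h7 (by linarith)]
    field_simp
  · obtain ⟨v, hv, rfl⟩ := h6 p X hX
    refine ⟨ex e p v, eq_of_ipA ?_⟩
    rw [h2, h2, heq p _ _ (hg1 _) hv, hg2, dist_self, mul_zero, Real.cos_zero]
    norm_num

end

end Vale.Agent.P231Z
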