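import Vale.Agent.P231Z.Oct.Defs
import Mathlib.Algebra.Module.Prod
import Mathlib.Algebra.Module.Pi
import Mathlib.Tactic.Ring
import Mathlib.Tactic.Linarith
import Mathlib.Tactic.Positivity
import Mathlib.Tactic.FinCases
import Mathlib.Tactic.Module
import Mathlib.Tactic.LinearCombination
import Mathlib.Tactic.FieldSimp
import Mathlib.Analysis.SpecialFunctions.Pow.Real

/-! Identities in the octonions and the points of the Cayley plane. -/

namespace Vale.Agent.P231Z

noncomputable section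

open Quaternion

/-- the real octonions -/
def oR (r : ℝ) : Oct := ((r : Quaternion ℝ), 0)

theorem oct_ext {x y : Oct} (h0 : x.1.re = y.1.re) (h1 : x.1.imI = y.1.imI)
    (h2 : x.1.imJ = y.1.imJ) (h3 : x.1.imK = y.1.imK) (h4 : x.2.re = y.2.re)
    (h5 : x.2.imI = y.2.imI) (h6 : x.2.imJ = y.2.imJ) (h7 : x.2.imK = y.2.imK) : x = y :=
  Prod.ext (Quaternion.ext _ _ h0 h1 h2 h3) (Quaternion.ext _ _ h4 h5 h6 h7)

theorem oip_eq (x y : Oct) : oip x y = x.1.re * y.1.re + x.1.imI * y.1.imI + x.1.imJ * y.1.imJ +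
    x.1.imK * y.1.imK + x.2.re * y.2.re + x.2.imI * y.2.imI + x.2.imJ * y.2.imJ +
    x.2.imK * y.2.imK := by
  simp only [oip, re_mul, re_star, imI_star, imJ_star, imK_star]
  ring

theorem omul0 (x y : Oct) : (omul x y).1.re = x.1.re * y.1.re - x.1.imI * y.1.imI -
    x.1.imJ * y.1.imJ - x.1.imK * y.1.imK - (y.2.re * x.2.re + y.2.imI * x.2.imI +
    y.2.imJ * x.2.imJ + y.2.imK * x.2.imK) := by
  simp only [omul, re_sub, re_mul, re_star, imI_star, imJ_star, imK_star]
  ring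

theorem omul1 (x y : Oct) : (omul x y).1.imI = x.1.re * y.1.imI + x.1.imI * y.1.re +
    x.1.imJ * y.1.imK - x.1.imK * y.1.imJ - (y.2.re * x.2.imI - y.2.imI * x.2.re -
    y.2.imJ * x.2.imK + y.2.imK * x.2.imJ) := by
  simp only [omul, imI_sub, imI_mul, re_star, imI_star, imJ_star, imK_star]
  ring

theorem omul2 (x y : Oct) : (omul x y).1.imJ = x.1.re * y.1.imJ - x.1.imI * y.1.imK +
    x.1.imJ * y.1.re + x.1.imK * y.1.imI - (y.2.re * x.2.imJ + y.2.imI * x.2.imK -
    y.2.imJ * x.2.re - y.2.imK * x.2.imI) := by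
  simp only [omul, imJ_sub, imJ_mul, re_star, imI_star, imJ_star, imK_star]
  ring

theorem omul3 (x y : Oct) : (omul x y).1.imK = x.1.re * y.1.imK + x.1.imI * y.1.imJ -
    x.1.imJ * y.1.imI + x.1.imK * y.1.re - (y.2.re * x.2.imK - y.2.imI * x.2.imJ +
    y.2.imJ * x.2.imI - y.2.imK * x.2.re) := by
  simp only [omul, imK_sub, imK_mul, re_star, imI_star, imJ_star, imK_star]
  ring

theorem omul4 (x y : Oct) : (omul x y).2.re = y.2.re * x.1.re - y.2.imI * x.1.imI -
    y.2.imJ * x.1.imJ - y.2.imK * x.1.imK + (x.2.re * y.1.re + x.2.imI * y.1.imI +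
    x.2.imJ * y.1.imJ + x.2.imK * y.1.imK) := by
  simp only [omul, re_add, re_mul, re_star, imI_star, imJ_star, imK_star]
  ring

theorem omul5 (x y : Oct) : (omul x y).2.imI = y.2.re * x.1.imI + y.2.imI * x.1.re +
    y.2.imJ * x.1.imK - y.2.imK * x.1.imJ + (-(x.2.re * y.1.imI) + x.2.imI * y.1.re -
    x.2.imJ * y.1.imK + x.2.imK * y.1.imJ) := by
  simp only [omul, imI_add, imI_mul, re_star, imI_star, imJ_star, imK_star]
  ring

theorem omul6 (x y : Oct) : (omul x y).2.imJ = y.2.re * x.1.imJ - y.2.imI * x.1.imK +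
    y.2.imJ * x.1.re + y.2.imK * x.1.imI + (-(x.2.re * y.1.imJ) + x.2.imI * y.1.imK +
    x.2.imJ * y.1.re - x.2.imK * y.1.imI) := by
  simp only [omul, imJ_add, imJ_mul, re_star, imI_star, imJ_star, imK_star]
  ring

theorem omul7 (x y : Oct) : (omul x y).2.imK = y.2.re * x.1.imK + y.2.imI * x.1.imJ -
    y.2.imJ * x.1.imI + y.2.imK * x.1.re + (-(x.2.re * y.1.imK) - x.2.imI * y.1.imJ +
    x.2.imJ * y.1.imI + x.2.imK * y.1.re) := by
  simp only [omul, imK_add, imK_mul, re_star, imI_star, imJ_star, imK_star]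
  ring

theorem oconj0 (x : Oct) : (oconj x).1.re = x.1.re := re_star _
theorem oconj1 (x : Oct) : (oconj x).1.imI = -x.1.imI := imI_star _
theorem oconj2 (x : Oct) : (oconj x).1.imJ = -x.1.imJ := imJ_star _
theorem oconj3 (x : Oct) : (oconj x).1.imK = -x.1.imK := imK_star _
theorem oconj4 (x : Oct) : (oconj x).2.re = -x.2.re := rfl
theorem oconj5 (x : Oct) : (oconj x).2.imI = -x.2.imI := rfl
theorem oconj6 (x : Oct) : (oconj x).2.imJ = -x.2.imJ := rfl
theorem oconj7 (x : Oct) : (oconj x).2.imK = -x.2.imK := rfl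

theorem oR0 (r : ℝ) : (oR r).1.re = r := rfl
theorem oR1 (r : ℝ) : (oR r).1.imI = 0 := rfl
theorem oR2 (r : ℝ) : (oR r).1.imJ = 0 := rfl
theorem oR3 (r : ℝ) : (oR r).1.imK = 0 := rfl
theorem oR4 (r : ℝ) : (oR r).2.re = 0 := rfl
theorem oR5 (r : ℝ) : (oR r).2.imI = 0 := rfl
theorem oR6 (r : ℝ) : (oR r).2.imJ = 0 := rfl
theorem oR7 (r : ℝ) : (oR r).2.imK = 0 := rfl

theorem osm0 (r : ℝ) (x : Oct) : (r • x).1.re = r * x.1.re := rfl
theorem osm1 (r : ℝ) (x : Oct) : (r • x).1.imI = r * x.1.imI := rfl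
theorem osm2 (r : ℝ) (x : Oct) : (r • x).1.imJ = r * x.1.imJ := rfl
theorem osm3 (r : ℝ) (x : Oct) : (r • x).1.imK = r * x.1.imK := rfl
theorem osm4 (r : ℝ) (x : Oct) : (r • x).2.re = r * x.2.re := rfl
theorem osm5 (r : ℝ) (x : Oct) : (r • x).2.imI = r * x.2.imI := rfl
theorem osm6 (r : ℝ) (x : Oct) : (r • x).2.imJ = r * x.2.imJ := rfl
theorem osm7 (r : ℝ) (x : Oct) : (r • x).2.imK = r * x.2.imK := rfl

theorem oad0 (x y : Oct) : (x + y).1.re = x.1.re + y.1.re := rfl
theorem oad1 (x y : Oct) : (x + y).1.imI = x.1.imI + y.1.imI := rfl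
theorem oad2 (x y : Oct) : (x + y).1.imJ = x.1.imJ + y.1.imJ := rfl
theorem oad3 (x y : Oct) : (x + y).1.imK = x.1.imK + y.1.imK := rfl
theorem oad4 (x y : Oct) : (x + y).2.re = x.2.re + y.2.re := rfl
theorem oad5 (x y : Oct) : (x + y).2.imI = x.2.imI + y.2.imI := rfl
theorem oad6 (x y : Oct) : (x + y).2.imJ = x.2.imJ + y.2.imJ := rfl
theorem oad7 (x y : Oct) : (x + y).2.imK = x.2.imK + y.2.imK := rfl

theorem oip_comm (x y : Oct) : oip x y = oip y x := by
  rw [oip_eq, oip_eq]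
  ring

theorem oip_add_left (x y z : Oct) : oip (x + y) z = oip x z + oip y z := by
  simp only [oip_eq, oad0, oad1, oad2, oad3, oad4, oad5, oad6, oad7]
  ring

theorem oip_add_right (x y z : Oct) : oip x (y + z) = oip x y + oip x z := by
  rw [oip_comm, oip_add_left, oip_comm y, oip_comm z]

theorem oip_smul_left (r : ℝ) (x y : Oct) : oip (r • x) y = r * oip x y := by
  simp only [oip_eq, osm0, osm1, osm2, osm3, osm4, osm5, osm6, osm7]
  ring

theorem oip_smul_right (r : ℝ) (x y : Oct) : oip x (r • y) = r * oip x y := by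
  rw [oip_comm, oip_smul_left, oip_comm]

theorem oip_zero_left (x : Oct) : oip 0 x = 0 := by
  have h := oip_smul_left 0 x x
  have h0 : (0 : ℝ) • x = 0 := zero_smul ℝ x
  rwa [h0, zero_mul] at h

theorem oip_zero_right (x : Oct) : oip x 0 = 0 := by
  rw [oip_comm, oip_zero_left]

theorem oip_self_nonneg (x : Oct) : 0 ≤ oip x x := by
  rw [oip_eq]
  nlinarith [mul_self_nonneg x.1.re, mul_self_nonneg x.1.imI, mul_self_nonneg x.1.imJ,
    mul_self_nonneg x.1.imK, mul_self_nonneg x.2.re, mul_self_nonneg x.2.imI,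
    mul_self_nonneg x.2.imJ, mul_self_nonneg x.2.imK]

theorem oip_self_eq_zero {x : Oct} (h : oip x x = 0) : x = 0 := by
  rw [oip_eq] at h
  have a0 := mul_self_nonneg x.1.re
  have a1 := mul_self_nonneg x.1.imI
  have a2 := mul_self_nonneg x.1.imJ
  have a3 := mul_self_nonneg x.1.imK
  have a4 := mul_self_nonneg x.2.re
  have a5 := mul_self_nonneg x.2.imI
  have a6 := mul_self_nonneg x.2.imJ
  have a7 := mul_self_nonneg x.2.imK
  refine oct_ext ?_ ?_ ?_ ?_ ?_ ?_ ?_ ?_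
  all_goals exact mul_self_eq_zero.1 (by linarith)

theorem oip_conj (x y : Oct) : oip (oconj x) (oconj y) = oip x y := by
  simp only [oip_eq, oconj0, oconj1, oconj2, oconj3, oconj4, oconj5, oconj6, oconj7]
  ring

theorem oip_oR (r s : ℝ) : oip (oR r) (oR s) = r * s := by
  simp only [oip_eq, oR0, oR1, oR2, oR3, oR4, oR5, oR6, oR7]
  ring

theorem oip_oR_right (x : Oct) (s : ℝ) : oip x (oR s) = x.1.re * s := by
  simp only [oip_eq, oR0, oR1, oR2, oR3, oR4, oR5, oR6, oR7]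
  ring

theorem oconj_oconj (x : Oct) : oconj (oconj x) = x := by
  refine oct_ext ?_ ?_ ?_ ?_ ?_ ?_ ?_ ?_
  all_goals simp only [oconj0, oconj1, oconj2, oconj3, oconj4, oconj5, oconj6, oconj7, neg_neg]

theorem oconj_oR (r : ℝ) : oconj (oR r) = oR r := by
  refine oct_ext ?_ ?_ ?_ ?_ ?_ ?_ ?_ ?_
  all_goals simp only [oconj0, oconj1, oconj2, oconj3, oconj4, oconj5, oconj6, oconj7, oR0, oR1,
    oR2, oR3, oR4, oR5, oR6, oR7, neg_zero]

theorem oconj_smul (r : ℝ) (x : Oct) : oconj (r • x) = r • oconj x := by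
  refine oct_ext ?_ ?_ ?_ ?_ ?_ ?_ ?_ ?_
  all_goals simp only [oconj0, oconj1, oconj2, oconj3, oconj4, oconj5, oconj6, oconj7, osm0, osm1,
    osm2, osm3, osm4, osm5, osm6, osm7, mul_neg]

theorem oconj_add (x y : Oct) : oconj (x + y) = oconj x + oconj y := by
  refine oct_ext ?_ ?_ ?_ ?_ ?_ ?_ ?_ ?_
  all_goals simp only [oconj0, oconj1, oconj2, oconj3, oconj4, oconj5, oconj6, oconj7, oad0, oad1,
    oad2, oad3, oad4, oad5, oad6, oad7, neg_add]

theorem oconj_zero : oconj 0 = 0 := by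
  have h := oconj_smul 0 0
  have h0 : ∀ x : Oct, (0 : ℝ) • x = 0 := fun x => zero_smul ℝ x
  rwa [h0, h0] at h

theorem oconj_omul (x y : Oct) : oconj (omul x y) = omul (oconj y) (oconj x) := by
  refine oct_ext ?_ ?_ ?_ ?_ ?_ ?_ ?_ ?_
  all_goals
    simp only [oconj0, oconj1, oconj2, oconj3, oconj4, oconj5, oconj6, oconj7, omul0, omul1,
      omul2, omul3, omul4, omul5, omul6, omul7]
    ring

theorem omul_oR_left (r : ℝ) (x : Oct) : omul (oR r) x = r • x := by
  refine oct_ext ?_ ?_ ?_ ?_ ?_ ?_ ?_ ?_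
  all_goals
    simp only [oR0, oR1, oR2, oR3, oR4, oR5, oR6, oR7, omul0, omul1,
      omul2, omul3, omul4, omul5, omul6, omul7, osm0, osm1, osm2, osm3, osm4, osm5, osm6, osm7]
    ring

theorem omul_oR_right (r : ℝ) (x : Oct) : omul x (oR r) = r • x := by
  refine oct_ext ?_ ?_ ?_ ?_ ?_ ?_ ?_ ?_
  all_goals
    simp only [oR0, oR1, oR2, oR3, oR4, oR5, oR6, oR7, omul0, omul1,
      omul2, omul3, omul4, omul5, omul6, omul7, osm0, osm1, osm2, osm3, osm4, osm5, osm6, osm7]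
    ring

theorem omul_smul_left (r : ℝ) (x y : Oct) : omul (r • x) y = r • omul x y := by
  refine oct_ext ?_ ?_ ?_ ?_ ?_ ?_ ?_ ?_
  all_goals
    simp only [omul0, omul1,
      omul2, omul3, omul4, omul5, omul6, omul7, osm0, osm1, osm2, osm3, osm4, osm5, osm6, osm7]
    ring

theorem omul_smul_right (r : ℝ) (x y : Oct) : omul x (r • y) = r • omul x y := by
  refine oct_ext ?_ ?_ ?_ ?_ ?_ ?_ ?_ ?_
  all_goals
    simp only [omul0, omul1,
      omul2, omul3, omul4, omul5, omul6, omul7, osm0, osm1, osm2, osm3, osm4, osm5, osm6, osm7]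
    ring

theorem smul_oR (r s : ℝ) : r • oR s = oR (r * s) := by
  refine oct_ext ?_ ?_ ?_ ?_ ?_ ?_ ?_ ?_
  all_goals simp only [oR0, oR1, oR2, oR3, oR4, oR5, oR6, oR7, osm0, osm1, osm2, osm3, osm4, osm5,
    osm6, osm7, mul_zero]

theorem omul_conj_self (x : Oct) : omul x (oconj x) = oR (oip x x) := by
  refine oct_ext ?_ ?_ ?_ ?_ ?_ ?_ ?_ ?_
  all_goals
    simp only [oconj0, oconj1, oconj2, oconj3, oconj4, oconj5, oconj6, oconj7, omul0, omul1,
      omul2, omul3, omul4, omul5, omul6, omul7, oR0, oR1, oR2, oR3, oR4, oR5, oR6, oR7, oip_eq]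
    ring

/-- left alternativity -/
theorem conj_omul_omul (x y : Oct) : omul (oconj x) (omul x y) = oip x x • y := by
  refine oct_ext ?_ ?_ ?_ ?_ ?_ ?_ ?_ ?_
  all_goals
    simp only [oconj0, oconj1, oconj2, oconj3, oconj4, oconj5, oconj6, oconj7, omul0, omul1,
      omul2, omul3, omul4, omul5, omul6, omul7, osm0, osm1, osm2, osm3, osm4, osm5, osm6, osm7,
      oip_eq]
    ring

/-- right alternativity -/
theorem omul_omul_conj (x y : Oct) : omul (omul x (oconj y)) y = oip y y • x := by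
  refine oct_ext ?_ ?_ ?_ ?_ ?_ ?_ ?_ ?_
  all_goals
    simp only [oconj0, oconj1, oconj2, oconj3, oconj4, oconj5, oconj6, oconj7, omul0, omul1,
      omul2, omul3, omul4, omul5, omul6, omul7, osm0, osm1, osm2, osm3, osm4, osm5, osm6, osm7,
      oip_eq]
    ring

/-- the norm is multiplicative -/
theorem oip_omul (x y : Oct) : oip (omul x y) (omul x y) = oip x x * oip y y := by
  simp only [omul0, omul1, omul2, omul3, omul4, omul5, omul6, omul7, oip_eq]
  ring

end

end Vale.Agent.P231Z
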