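import Vale.Agent.P231Z.Oct.Alg
import Mathlib.Analysis.InnerProductSpace.Basic
import Mathlib.LinearAlgebra.FiniteDimensional.Lemmas
import Mathlib.LinearAlgebra.Dimension.Constructions

/-! A composition algebra of dimension at least five contains the octonions. -/

namespace Vale.Agent.P231Z

noncomputable section

open Module Quaternion

variable {W : Type*} [NormedAddCommGroup W] [InnerProductSpace ℝ W]

/-- a unit vector orthogonal to a small family -/
theorem exists_orth [FiniteDimensional ℝ W] {k : ℕ} (s : Fin k → W) (hk : k < finrank ℝ W) :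
    ∃ v : W, (inner ℝ v v : ℝ) = 1 ∧ ∀ i, (inner ℝ v (s i) : ℝ) = 0 := by
  let f : W →ₗ[ℝ] (Fin k → ℝ) := LinearMap.pi fun i => innerₛₗ ℝ (s i)
  have h1 : LinearMap.ker f ≠ ⊥ := by
    apply LinearMap.ker_ne_bot_of_finrank_lt
    rw [finrank_fin_fun]
    exact hk
  obtain ⟨w, hw, hw0⟩ := Submodule.exists_mem_ne_zero_of_ne_bot h1
  have hn : ‖w‖ ≠ 0 := norm_ne_zero_iff.2 hw0
  refine ⟨‖w‖⁻¹ • w, ?_, fun i => ?_⟩
  · rw [real_inner_self_eq_norm_sq, norm_smul, norm_inv, norm_norm, inv_mul_cancel₀ hn, one_pow]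
  · have h2 : (inner ℝ (s i) w : ℝ) = 0 := congrFun (LinearMap.mem_ker.1 hw) i
    rw [real_inner_smul_left, real_inner_comm, h2, mul_zero]

/-- a composition algebra with unit `o` -/
structure Comp (m : W →ₗ[ℝ] W →ₗ[ℝ] W) (o : W) : Prop where
  unit : (inner ℝ o o : ℝ) = 1
  left : ∀ v, m o v = v
  right : ∀ v, m v o = v
  norm : ∀ x y, (inner ℝ (m x y) (m x y) : ℝ) = inner ℝ x x * inner ℝ y y

/-- conjugation -/
def bar (o x : W) : W := (2 * inner ℝ x o : ℝ) • o - x

variable {m : W →ₗ[ℝ] W →ₗ[ℝ] W} {o : W}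

theorem bar_im {x : W} (hx : (inner ℝ x o : ℝ) = 0) : bar o x = -x := by
  unfold bar
  rw [hx, mul_zero, zero_smul, zero_sub]

theorem Comp.scal (h : Comp m o) (x y y' : W) :
    (inner ℝ (m x y) (m x y') : ℝ) = inner ℝ x x * inner ℝ y y' := by
  have h1 := h.norm x (y + y')
  have h2 := h.norm x y
  have h3 := h.norm x y'
  simp only [map_add, inner_add_left, inner_add_right] at h1
  rw [real_inner_comm (m x y) (m x y'), real_inner_comm y y'] at h1
  linarith

theorem Comp.exch (h : Comp m o) (x x' y y' : W) :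
    (inner ℝ (m x y) (m x' y') : ℝ) + inner ℝ (m x y') (m x' y) =
      2 * inner ℝ x x' * inner ℝ y y' := by
  have h1 := h.scal (x + x') y y'
  have h2 := h.scal x y y'
  have h3 := h.scal x' y y'
  simp only [map_add, LinearMap.add_apply, inner_add_left, inner_add_right] at h1
  rw [real_inner_comm (m x y') (m x' y), real_inner_comm x x'] at h1
  linarith

theorem Comp.adjL (h : Comp m o) (x y z : W) :
    (inner ℝ (m (bar o x) y) z : ℝ) = inner ℝ y (m x z) := by
  have h1 := h.exch x o y z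
  rw [h.left, h.left, real_inner_comm y (m x z)] at h1
  unfold bar
  rw [map_sub, map_smul, LinearMap.sub_apply, LinearMap.smul_apply, h.left, inner_sub_left,
    real_inner_smul_left]
  linarith

theorem Comp.adjR (h : Comp m o) (x y z : W) :
    (inner ℝ (m x (bar o y)) z : ℝ) = inner ℝ x (m z y) := by
  have h1 := h.exch x z y o
  rw [h.right, h.right] at h1
  unfold bar
  rw [map_sub, map_smul, h.right, inner_sub_left, real_inner_smul_left]
  linarith

theorem Comp.altL (h : Comp m o) (x y z : W) :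
    m (bar o x) (m y z) + m (bar o y) (m x z) = (2 * inner ℝ x y : ℝ) • z := by
  refine ext_inner_right ℝ fun t => ?_
  rw [inner_add_left, h.adjL, h.adjL, real_inner_smul_left, ← h.exch x y z t,
    real_inner_comm (m x t) (m y z), add_comm]

theorem Comp.altR (h : Comp m o) (x y z : W) :
    m (m z x) (bar o y) + m (m z y) (bar o x) = (2 * inner ℝ x y : ℝ) • z := by
  refine ext_inner_right ℝ fun t => ?_
  rw [inner_add_left, h.adjR, h.adjR, real_inner_smul_left, h.exch z t x y]
  ring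

theorem Comp.sqL (h : Comp m o) {i : W} (hi : (inner ℝ i i : ℝ) = 1)
    (hio : (inner ℝ i o : ℝ) = 0) (z : W) : m i (m i z) = -z := by
  have h1 := h.altL i i z
  rw [bar_im hio, hi, map_neg, LinearMap.neg_apply] at h1
  linear_combination (norm := module) (-(1 : ℝ) / 2) • h1

theorem Comp.sqR (h : Comp m o) {i : W} (hi : (inner ℝ i i : ℝ) = 1)
    (hio : (inner ℝ i o : ℝ) = 0) (z : W) : m (m z i) i = -z := by
  have h1 := h.altR i i z
  rw [bar_im hio, hi, map_neg] at h1
  linear_combination (norm := module) (-(1 : ℝ) / 2) • h1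

theorem Comp.sq (h : Comp m o) {i : W} (hi : (inner ℝ i i : ℝ) = 1)
    (hio : (inner ℝ i o : ℝ) = 0) : m i i = -o := by
  have h1 := h.sqL hi hio o
  rwa [h.right] at h1

/-- an imaginary element orthogonal to `x` commutes with it up to conjugation -/
theorem Comp.swap (h : Comp m o) {l x : W} (hlo : (inner ℝ l o : ℝ) = 0)
    (hlx : (inner ℝ l x : ℝ) = 0) : m l x = m (bar o x) l := by
  have h1 := h.altL l x o
  rw [bar_im hlo, hlx, h.right, h.right, map_neg, LinearMap.neg_apply] at h1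
  linear_combination (norm := module) -h1

/-- the embedding of the quaternions -/
def psiH (o i j k : W) : Quaternion ℝ →ₗ[ℝ] W where
  toFun q := q.re • o + q.imI • i + q.imJ • j + q.imK • k
  map_add' p q := by
    simp only [re_add, imI_add, imJ_add, imK_add]
    module
  map_smul' r q := by
    show (r * q.re) • o + (r * q.imI) • i + (r * q.imJ) • j + (r * q.imK) • k =
      r • (q.re • o + q.imI • i + q.imJ • j + q.imK • k)
    module

theorem psiH_apply (o i j k : W) (q : Quaternion ℝ) :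
    psiH o i j k q = q.re • o + q.imI • i + q.imJ • j + q.imK • k := rfl

/-- a quaternion subalgebra -/
theorem Comp.exists_quat [FiniteDimensional ℝ W] (h : Comp m o) (hd : 3 ≤ finrank ℝ W) :
    ∃ φ : Quaternion ℝ →ₗ[ℝ] W, φ 1 = o ∧ (∀ p q, φ (p * q) = m (φ p) (φ q)) ∧
      (∀ p q, (inner ℝ (φ p) (φ q) : ℝ) = (p * star q).re) ∧ ∀ q, φ (star q) = bar o (φ q) := by
  obtain ⟨i, hi, h1⟩ := exists_orth ![o] (by omega)
  obtain ⟨j, hj, h2⟩ := exists_orth ![o, i] (by omega)
  have hio : (inner ℝ i o : ℝ) = 0 := h1 0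
  have hjo : (inner ℝ j o : ℝ) = 0 := h2 0
  have hji : (inner ℝ j i : ℝ) = 0 := h2 1
  have hij : (inner ℝ i j : ℝ) = 0 := by rw [real_inner_comm, hji]
  obtain ⟨k, hk⟩ : ∃ k, m i j = k := ⟨_, rfl⟩
  have hkk : (inner ℝ k k : ℝ) = 1 := by rw [← hk, h.norm, hi, hj, one_mul]
  have hki : (inner ℝ k i : ℝ) = 0 := by
    have h3 := h.scal i j o
    rwa [hk, h.right, hjo, mul_zero] at h3
  have hkj : (inner ℝ k j : ℝ) = 0 := by
    have h3 := h.exch i o j j
    rw [hk, h.left, hio] at h3
    linarith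
  have hko : (inner ℝ k o : ℝ) = 0 := by
    have h3 := h.exch i o j o
    rw [hk, h.left, h.left, h.right, hio, hij] at h3
    linarith
  have hik : (inner ℝ i k : ℝ) = 0 := by rw [real_inner_comm, hki]
  have hjk : (inner ℝ j k : ℝ) = 0 := by rw [real_inner_comm, hkj]
  have hoi : (inner ℝ o i : ℝ) = 0 := by rw [real_inner_comm, hio]
  have hoj : (inner ℝ o j : ℝ) = 0 := by rw [real_inner_comm, hjo]
  have hok : (inner ℝ o k : ℝ) = 0 := by rw [real_inner_comm, hko]
  have mii := h.sq hi hio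
  have mjj := h.sq hj hjo
  have mkk := h.sq hkk hko
  have mji : m j i = -k := by
    rw [h.swap hjo hji, bar_im hio, map_neg, LinearMap.neg_apply, hk]
  have mik : m i k = -j := by rw [← hk, h.sqL hi hio]
  have mkj : m k j = -i := by rw [← hk, h.sqR hj hjo]
  have mki : m k i = j := by
    rw [h.swap hko hki, bar_im hio, map_neg, LinearMap.neg_apply, mik, neg_neg]
  have mjk : m j k = i := by
    rw [h.swap hjo hjk, bar_im hko, map_neg, LinearMap.neg_apply, mkj, neg_neg]
  refine ⟨psiH o i j k, ?_, fun p q => ?_, fun p q => ?_, fun q => ?_⟩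
  · rw [psiH_apply]
    simp
  · simp only [psiH_apply, map_add, map_smul, LinearMap.add_apply, LinearMap.smul_apply, h.left,
      h.right, mii, mjj, mkk, hk, mji, mik, mkj, mki, mjk, re_mul, imI_mul, imJ_mul, imK_mul]
    module
  · simp only [psiH_apply, inner_add_left, inner_add_right, real_inner_smul_left,
      real_inner_smul_right, h.unit, hi, hj, hkk, hio, hjo, hko, hoi, hoj, hok, hij, hji, hik, hki,
      hjk, hkj, re_mul, re_star, imI_star, imJ_star, imK_star]
    ring
  · unfold bar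
    simp only [psiH_apply, inner_add_left, real_inner_smul_left, h.unit, hio, hjo, hko, re_star,
      imI_star, imJ_star, imK_star]
    module

/-- the quaternion with given components -/
def qb (a b c d : ℝ) : Quaternion ℝ := ⟨a, b, c, d⟩

/-- an octonion subalgebra -/
theorem Comp.exists_oct [FiniteDimensional ℝ W] (h : Comp m o) (hd : 5 ≤ finrank ℝ W) :
    ∃ ψ : Oct →ₗ[ℝ] W, (∀ p q, ψ (omul p q) = m (ψ p) (ψ q)) ∧
      ∀ p q, (inner ℝ (ψ p) (ψ q) : ℝ) = oip p q := by
  obtain ⟨φ, h0, h1, h2, h3⟩ := h.exists_quat (by omega)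
  obtain ⟨l, hl, h4⟩ := exists_orth
    ![φ (qb 1 0 0 0), φ (qb 0 1 0 0), φ (qb 0 0 1 0), φ (qb 0 0 0 1)] (by omega)
  have hlq : ∀ q, (inner ℝ l (φ q) : ℝ) = 0 := by
    intro q
    have e : q = q.re • qb 1 0 0 0 + q.imI • qb 0 1 0 0 +
        q.imJ • qb 0 0 1 0 + q.imK • qb 0 0 0 1 := by
      apply Quaternion.ext
      · show q.re = q.re * 1 + q.imI * 0 + q.imJ * 0 + q.imK * 0
        ring
      · show q.imI = q.re * 0 + q.imI * 1 + q.imJ * 0 + q.imK * 0
        ring
      · show q.imJ = q.re * 0 + q.imI * 0 + q.imJ * 1 + q.imK * 0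
        ring
      · show q.imK = q.re * 0 + q.imI * 0 + q.imJ * 0 + q.imK * 1
        ring
    have a0 : (inner ℝ l (φ (qb 1 0 0 0)) : ℝ) = 0 := h4 0
    have a1 : (inner ℝ l (φ (qb 0 1 0 0)) : ℝ) = 0 := h4 1
    have a2 : (inner ℝ l (φ (qb 0 0 1 0)) : ℝ) = 0 := h4 2
    have a3 : (inner ℝ l (φ (qb 0 0 0 1)) : ℝ) = 0 := h4 3
    have e2 : φ q = q.re • φ (qb 1 0 0 0) + q.imI • φ (qb 0 1 0 0) + q.imJ • φ (qb 0 0 1 0) +
        q.imK • φ (qb 0 0 0 1) := by
      rw [← φ.map_smul, ← φ.map_smul, ← φ.map_smul, ← φ.map_smul, ← φ.map_add, ← φ.map_add,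
        ← φ.map_add]
      exact congrArg φ e
    rw [e2]
    simp only [inner_add_right, real_inner_smul_right, a0, a1, a2, a3, mul_zero, add_zero]
  have hlo : (inner ℝ l o : ℝ) = 0 := by rw [← h0, hlq]
  have hperp : ∀ b d, (inner ℝ (m (φ b) l) (φ d) : ℝ) = 0 := by
    intro b d
    have e := h.adjL (φ (star b)) l (φ d)
    rwa [← h3, star_star, ← h1, hlq] at e
  have hperp' : ∀ b d, (inner ℝ (φ d) (m (φ b) l) : ℝ) = 0 := fun b d => by
    rw [real_inner_comm, hperp]
  have hsw : ∀ q, m l (φ q) = m (φ (star q)) l := fun q => by rw [h.swap hlo (hlq q), h3]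
  have d1 : ∀ a d, m (φ a) (m (φ d) l) = m (φ (d * a)) l := by
    intro a d
    have e := h.altL (φ (star a)) l (φ (star d))
    rw [← h3, star_star, real_inner_comm, hlq, bar_im hlo, ← h1, map_neg, LinearMap.neg_apply,
      hsw, hsw, star_star, star_mul, star_star, star_star] at e
    linear_combination (norm := module) e
  have d2 : ∀ b c, m (m (φ b) l) (φ c) = m (φ (b * star c)) l := by
    intro b c
    have e := h.altR l (φ (star c)) (φ b)
    rw [← h3, star_star, hlq, bar_im hlo, ← h1, map_neg] at e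
    linear_combination (norm := module) e
  have d3 : ∀ b d, m (m (φ b) l) (m (φ d) l) = -φ (star d * b) := by
    intro b d
    have e := h.altL (m (φ b) l) (φ d) l
    have e1 : (inner ℝ (m (φ b) l) o : ℝ) = 0 := by rw [← h0, hperp]
    rw [bar_im e1, hperp, h.sqR hl hlo, ← h3, map_neg, map_neg, LinearMap.neg_apply, ← h1] at e
    linear_combination (norm := module) -e
  let ψ : Oct →ₗ[ℝ] W := φ ∘ₗ LinearMap.fst ℝ _ _ + (m.flip l) ∘ₗ φ ∘ₗ LinearMap.snd ℝ _ _
  have hψ : ∀ p : Oct, ψ p = φ p.1 + m (φ p.2) l := fun p => rfl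
  refine ⟨ψ, fun p q => ?_, fun p q => ?_⟩
  · rw [hψ, hψ, hψ]
    simp only [omul, map_add, map_sub, LinearMap.add_apply, d1, d2, d3, ← h1]
    abel
  · have e : (inner ℝ (m (φ p.2) l) (m (φ q.2) l) : ℝ) = inner ℝ (φ p.2) (φ q.2) := by
      have e1 := h.exch (φ p.2) (φ q.2) l l
      rw [hl] at e1
      linarith
    rw [hψ, hψ, inner_add_left, inner_add_right, inner_add_right, hperp, hperp', e, h2, h2]
    unfold oip
    ring

end

end Vale.Agent.P231Z
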