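import Vale.Agent.P231Z.Oct.OT
import Vale.Agent.P231Z.Oct.Hur

/-! P231: octonion coordinates and complex slices for the operator form `T`. -/

set_option maxSynthPendingDepth 3
set_option linter.unusedSectionVars false

open Module Set

namespace Vale.Agent.P231Z

noncomputable section

open Vale.Agent.P231 Vale.Agent.P231.H512 Vale.Agent.P231.WR

variable {V : Type*} [NormedAddCommGroup V] [InnerProductSpace ℝ V]
  {T : V →ₗ[ℝ] V →ₗ[ℝ] V →ₗ[ℝ] V} {u₀ : V}

theorem bar_add (o x y : V) : bar o (x + y) = bar o x + bar o y := by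
  unfold bar
  rw [inner_add_left]
  module

theorem bar_smul (o x : V) (r : ℝ) : bar o (r • x) = r • bar o x := by
  unfold bar
  rw [real_inner_smul_left]
  module

theorem bar_bar {o : V} (ho : (inner ℝ o o : ℝ) = 1) (x : V) : bar o (bar o x) = x := by
  unfold bar
  rw [inner_sub_left, real_inner_smul_left, ho]
  module

theorem inner_bar {o : V} (ho : (inner ℝ o o : ℝ) = 1) (x y : V) :
    (inner ℝ (bar o x) (bar o y) : ℝ) = inner ℝ x y := by
  unfold bar
  simp only [inner_sub_left, inner_sub_right, real_inner_smul_left, real_inner_smul_right, ho,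
    real_inner_comm y o]
  ring

theorem OT.bar_mem (h : OT T) (hu : (inner ℝ u₀ u₀ : ℝ) = 1) {a : V} (ha : T u₀ u₀ a = a) :
    T u₀ u₀ (bar u₀ a) = bar u₀ a := by
  unfold bar
  rw [map_sub, map_smul, h.self, hu, one_smul, ha]

theorem OT.rho_bar (h : OT T) (hu : (inner ℝ u₀ u₀ : ℝ) = 1) (a : V) {v : V}
    (hv : T u₀ u₀ v = 0) :
    rho T u₀ (bar u₀ a) v = (2 * inner ℝ u₀ a : ℝ) • v - rho T u₀ a v := by
  unfold bar
  rw [map_sub, map_smul, LinearMap.sub_apply, LinearMap.smul_apply, h.rho_one hu hv,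
    real_inner_comm]

theorem OT.shift' (h : OT T) (hu : (inner ℝ u₀ u₀ : ℝ) = 1) {a v : V} (ha : T u₀ u₀ a = a)
    (hv : T u₀ u₀ v = 0) (z : V) : T a v z = T u₀ (rho T u₀ (bar u₀ a) v) z := by
  rcases eq_or_ne a 0 with rfl | ha0
  · simp [bar]
  have haa : (inner ℝ a a : ℝ) ≠ 0 := inner_self_ne_zero.2 ha0
  have hv' := h.rho_mem hu hv (h.bar_mem hu ha)
  have e1 : rho T u₀ a (rho T u₀ (bar u₀ a) v) = (inner ℝ a a : ℝ) • v := by
    rw [h.rho_bar hu a hv, map_sub, map_smul, h.rho_sq hu ha hv]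
    module
  have e2 := h.shift hu ha hv' z
  rw [e1, map_smul, LinearMap.smul_apply] at e2
  exact smul_right_injective V haa e2

theorem OT.rho_adj (h : OT T) (hu : (inner ℝ u₀ u₀ : ℝ) = 1) (a : V) {v w : V}
    (hv : T u₀ u₀ v = 0) (hw : T u₀ u₀ w = 0) :
    (inner ℝ (rho T u₀ a v) w : ℝ) = inner ℝ v (rho T u₀ (bar u₀ a) w) := by
  have h1 := h.rho_skew2 a hv hw
  rw [h.rho_bar hu a hw, inner_sub_right, real_inner_smul_right,
    real_inner_comm (rho T u₀ a w) v]
  linarith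

theorem OT.orthLW (h : OT T) {x v : V} (hx : T u₀ u₀ x = x) (hv : T u₀ u₀ v = 0) :
    (inner ℝ x v : ℝ) = 0 := by
  rw [← hx, h.symm, hv, inner_zero_right]

/-- the quartic form in terms of the Clifford action -/
theorem OT.quartic (h : OT T) (hu : (inner ℝ u₀ u₀ : ℝ) = 1)
    (hW : ∀ v w, T u₀ u₀ v = 0 → T u₀ u₀ w = 0 → T v v w = (inner ℝ v v : ℝ) • w)
    {x x' v v' : V} (hx : T u₀ u₀ x = x) (hx' : T u₀ u₀ x' = x') (hv : T u₀ u₀ v = 0)
    (hv' : T u₀ u₀ v' = 0) :
    (inner ℝ (T (x + v) (x + v) (x' + v')) (x' + v') : ℝ) =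
      inner ℝ x x * inner ℝ x' x' + inner ℝ v v * inner ℝ v' v' +
        2 * inner ℝ (rho T u₀ (bar u₀ x) v) (rho T u₀ (bar u₀ x') v') := by
  have e1 : T x x (x' + v') = (inner ℝ x x : ℝ) • x' := by
    rw [h.clos1 hu hx, map_add, hx', hv', add_zero]
  have e2 : T v v (x' + v') = (inner ℝ v v : ℝ) • v' := by
    rw [map_add, h.kill hv hx', hW v v' hv hv', zero_add]
  have o1 := h.orthLW hx' hv'
  have o2 := h.orthLW hx hv
  have o3 : (inner ℝ v' x' : ℝ) = 0 := by rw [real_inner_comm, o1]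
  have hy := h.rho_mem hu hv' (h.bar_mem hu hx')
  have e3 : (inner ℝ (T x v (x' + v')) (x' + v') : ℝ) =
      inner ℝ (rho T u₀ (bar u₀ x) v) (rho T u₀ (bar u₀ x') v') := by
    have e4 : T (x' + v') (x' + v') x =
        (inner ℝ x' x' : ℝ) • x + rho T u₀ x (rho T u₀ (bar u₀ x') v') := by
      rw [rho_apply u₀ x, ← h.shift' hu hx' hv' x]
      simp only [map_add, LinearMap.add_apply]
      rw [h.clos1 hu hx', hx, h.kill hv' hx, h.comm v' x' x]
      module
    rw [h.pair, e4, inner_add_left, real_inner_smul_left, o2, h.rho_adj hu x hy hv,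
      MulZeroClass.mul_zero, zero_add, real_inner_comm]
  have e5 : T (x + v) (x + v) (x' + v') = T x x (x' + v') + (2 : ℝ) • T x v (x' + v') +
      T v v (x' + v') := by
    generalize x' + v' = z
    simp only [map_add, LinearMap.add_apply]
    rw [h.comm v x z]
    module
  rw [e5, e1, e2, inner_add_left, inner_add_left, real_inner_smul_left, real_inner_smul_left,
    real_inner_smul_left, e3, inner_add_right, inner_add_right, o1, o3]
  ring

/-- a lower bound for the quartic form -/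
theorem OT.lower (h : OT T) {u j : V} (hu : (inner ℝ u u : ℝ) = 1) (hj : (inner ℝ j j : ℝ) = 1)
    (huj : T u u j = j) (w : V) : (inner ℝ j w : ℝ) ^ 2 ≤ inner ℝ (T u u w) w := by
  have h1 : (inner ℝ j w : ℝ) = inner ℝ j (T u u w) := by rw [← h.symm, huj]
  have h2 : (inner ℝ (T u u w) (T u u w) : ℝ) = inner ℝ (T u u w) w := by
    rw [← h.symm u u (T u u w) w, h.idem, hu, one_smul]
  have h3 := real_inner_mul_inner_self_le j (T u u w)
  rw [hj, one_mul, h2, ← h1] at h3
  rw [pow_two]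
  exact h3

variable [FiniteDimensional ℝ V]

theorem OT.lower' (h : OT T) (a w : V) : (inner ℝ a w : ℝ) ^ 2 ≤ inner ℝ (T a a w) w := by
  rcases eq_or_ne a 0 with rfl | ha
  · simp
  · obtain ⟨c, -, y, rfl, hy⟩ := exists_unit_smul ha
    have h1 := h.lower (inner_unit hy) (inner_unit hy) (by rw [h.self, inner_unit hy, one_smul]) w
    simp only [map_smul, LinearMap.smul_apply, real_inner_smul_left]
    nlinarith [mul_self_nonneg c]

theorem ker_rank (hrank : ∀ u : V, ‖u‖ = 1 → finrank ℝ (LinearMap.range (T u u)) = 8)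
    (hdim : finrank ℝ V = 16) (hu : (inner ℝ u₀ u₀ : ℝ) = 1) :
    finrank ℝ (LinearMap.ker (T u₀ u₀)) = 8 := by
  have h1 := LinearMap.finrank_range_add_finrank_ker (T u₀ u₀)
  rw [hrank u₀ (norm_unit hu), hdim] at h1
  omega

theorem OT.lineW (h : OT T)
    (hrank : ∀ u : V, ‖u‖ = 1 → finrank ℝ (LinearMap.range (T u u)) = 8)
    (hdim : finrank ℝ V = 16) (hu : (inner ℝ u₀ u₀ : ℝ) = 1) (v w : V) (hv : T u₀ u₀ v = 0)
    (hw : T u₀ u₀ w = 0) : T v v w = (inner ℝ v v : ℝ) • w := by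
  rcases eq_or_ne v 0 with rfl | hv0
  · simp
  obtain ⟨c, hc, y, rfl, hy⟩ := exists_unit_smul hv0
  have hy0 : T u₀ u₀ y = 0 := by
    rw [map_smul] at hv
    exact (smul_eq_zero.1 hv).resolve_left hc
  have h1 : LinearMap.range (T y y) = LinearMap.ker (T u₀ u₀) := by
    apply Submodule.eq_of_le_of_finrank_eq
    · rintro _ ⟨z, rfl⟩
      exact h.mul_zero (h.zero_symm hy0) z
    · rw [hrank y hy, ker_rank hrank hdim hu]
  have h2 : w ∈ LinearMap.range (T y y) := by
    rw [h1]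
    exact hw
  obtain ⟨z, hz⟩ := h2
  have h3 : T y y w = w := by rw [← hz, h.idem, inner_unit hy, one_smul]
  simp only [map_smul, LinearMap.smul_apply, real_inner_smul_left, real_inner_smul_right,
    inner_unit hy, h3]
  module

/-- **octonion coordinates** -/
theorem OT.exists_coord (h : OT T)
    (hrank : ∀ u : V, ‖u‖ = 1 → finrank ℝ (LinearMap.range (T u u)) = 8)
    (hdim : finrank ℝ V = 16) :
    ∃ Ψ : Oct × Oct → V, Function.Surjective Ψ ∧
      (∀ p q, (inner ℝ (Ψ p) (Ψ q) : ℝ) = oip p.1 q.1 + oip p.2 q.2) ∧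
      ∀ p q, (inner ℝ (T (Ψ p) (Ψ p) (Ψ q)) (Ψ q) : ℝ) = oip p.1 p.1 * oip q.1 q.1 +
        oip p.2 p.2 * oip q.2 q.2 + 2 * oip (omul p.1 (oconj p.2)) (omul q.1 (oconj q.2)) := by
  obtain ⟨u₀, hu, -⟩ := exists_orth (W := V) (k := 0) ![] (by omega)
  have hW := h.lineW hrank hdim hu
  have hk := ker_rank hrank hdim hu
  set W := LinearMap.ker (T u₀ u₀) with hWd
  obtain ⟨n, hn, -⟩ := exists_orth (W := W) (k := 0) ![] (by omega)
  have hn0 : T u₀ u₀ (n : V) = 0 := n.2
  have hn1 : (inner ℝ (n : V) (n : V) : ℝ) = 1 := hn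
  let κ : V →ₗ[ℝ] V := (2 : ℝ) • T u₀ n
  have hκ : ∀ w, κ w = (2 : ℝ) • T u₀ n w := fun w => rfl
  have hκL : ∀ w : W, T u₀ u₀ (κ w) = κ w := by
    intro w
    have h1 := h.AX hn0 w
    have h2 : T u₀ u₀ (w : V) = 0 := w.2
    rw [h2, map_zero, add_zero, hu, one_smul] at h1
    rw [hκ, map_smul, h1]
  have hκκ : ∀ w : W, κ (κ w) = w := by
    intro w
    have h1 := h.XX hn0 w
    have h2 : T u₀ u₀ (w : V) = 0 := w.2
    rw [h2, hW n w hn0 h2, hu, hn1, smul_zero, add_zero, one_smul, one_smul] at h1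
    rw [hκ, hκ, map_smul]
    linear_combination (norm := module) h1
  have hκi : ∀ w w' : W, (inner ℝ (κ w) (κ w') : ℝ) = inner ℝ w w' := by
    intro w w'
    have h1 : (inner ℝ (κ w) (κ w') : ℝ) = inner ℝ (κ (κ w)) (w' : V) := by
      rw [hκ (w' : V), hκ (κ w), real_inner_smul_right, real_inner_smul_left, h.symm]
    rw [h1, hκκ]
    rfl
  let m : W →ₗ[ℝ] W →ₗ[ℝ] W := LinearMap.mk₂ ℝ
    (fun w v => ⟨rho T u₀ (κ w) v, h.rho_mem hu v.2 (hκL w)⟩)
    (fun a b c => Subtype.ext (by simp only [Submodule.coe_add, map_add, LinearMap.add_apply]))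
    (fun c a b => Subtype.ext (by simp only [Submodule.coe_smul, map_smul, LinearMap.smul_apply]))
    (fun a b c => Subtype.ext (by simp only [Submodule.coe_add, map_add]))
    (fun c a b => Subtype.ext (by simp only [Submodule.coe_smul, map_smul]))
  have hm : ∀ w v : W, (m w v : V) = rho T u₀ (κ w) v := fun w v => rfl
  have hC : Comp m n :=
    { unit := hn
      left := fun v => Subtype.ext (by
        rw [hm, hκ, h.Xv hn0, hn1, one_smul, h.rho_one hu v.2])
      right := fun v => Subtype.ext (by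
        rw [hm, rho_apply, ← hκ, hκκ])
      norm := fun x y => by
        have h1 := h.rho_inner y.2 (hκL x) (κ x)
        rw [hκi] at h1
        exact h1 }
  obtain ⟨ψ, h1, h2⟩ := hC.exists_oct (by omega)
  let Ψ : (Oct × Oct) →ₗ[ℝ] V :=
    { toFun := fun p => bar u₀ (κ (ψ p.1)) + (ψ (oconj p.2) : V)
      map_add' := fun p q => by
        rw [Prod.fst_add, Prod.snd_add, oconj_add, map_add, map_add, Submodule.coe_add,
          Submodule.coe_add, map_add, bar_add]
        abel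
      map_smul' := fun r p => by
        have e1 : ψ (r • p).1 = r • ψ p.1 := ψ.map_smul r p.1
        have e2 : ψ (oconj (r • p).2) = r • ψ (oconj p.2) :=
          (congrArg ψ (oconj_smul r p.2)).trans (ψ.map_smul r _)
        rw [e1, e2, Submodule.coe_smul, Submodule.coe_smul, map_smul, bar_smul, RingHom.id_apply,
          smul_add] }
  have hΨ : ∀ p : Oct × Oct, Ψ p = bar u₀ (κ (ψ p.1)) + (ψ (oconj p.2) : V) := fun p => rfl
  have hL : ∀ a : Oct, T u₀ u₀ (bar u₀ (κ (ψ a))) = bar u₀ (κ (ψ a)) := fun a =>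
    h.bar_mem hu (hκL _)
  have hWm : ∀ b : Oct, T u₀ u₀ (ψ b : V) = 0 := fun b => (ψ b).2
  have h2' : ∀ a b : Oct, (inner ℝ (ψ a : V) (ψ b : V) : ℝ) = oip a b := h2
  have h3 : ∀ a b : Oct, (inner ℝ (bar u₀ (κ (ψ a))) (bar u₀ (κ (ψ b))) : ℝ) = oip a b :=
    fun a b => by rw [inner_bar hu, hκi, h2]
  have h4 : ∀ p q, (inner ℝ (Ψ p) (Ψ q) : ℝ) = oip p.1 q.1 + oip p.2 q.2 := by
    intro p q
    rw [hΨ, hΨ, inner_add_left, inner_add_right, inner_add_right, h3, h2', oip_conj,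
      h.orthLW (hL _) (hWm _), real_inner_comm, h.orthLW (hL _) (hWm _), add_zero, zero_add]
  refine ⟨Ψ, ?_, h4, fun p q => ?_⟩
  · have h5 : finrank ℝ (Oct × Oct) = finrank ℝ V := by
      rw [hdim, finrank_prod, finrank_prod, Quaternion.finrank_eq_four]
    rw [← LinearMap.injective_iff_surjective_of_finrank_eq_finrank h5,
      injective_iff_map_eq_zero]
    intro p hp
    have h6 := h4 p p
    rw [hp, inner_zero_left] at h6
    have h7 := oip_self_nonneg p.1
    have h8 := oip_self_nonneg p.2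
    exact Prod.ext (oip_self_eq_zero (by linarith)) (oip_self_eq_zero (by linarith))
  · rw [hΨ, hΨ, h.quartic hu hW (hL _) (hL _) (hWm _) (hWm _), h3, h3, h2', h2', oip_conj,
      oip_conj, bar_bar hu, bar_bar hu, ← hm, ← hm, ← h1, ← h1, h2']

end

end Vale.Agent.P231Z
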