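import Vale.Agent.P231.H512.FS8

/-! P231: geodesics of the complex projective space in polar coordinates. -/

set_option maxSynthPendingDepth 3
set_option linter.unusedSectionVars false

open Set Filter Module
open scoped ContDiff Topology ComplexConjugate

namespace Vale.Agent.P231Z

noncomputable section

open Vale.Agent.P231 Vale.Agent.P231.H512 Vale.Agent.P231.FS

variable {V : Type*} [NormedAddCommGroup V] [InnerProductSpace ℝ V]
  {H : Type*} [NormedAddCommGroup H] [InnerProductSpace ℂ H]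
  {J : V →ₗ[ℝ] V} {e0 : H} {ι : V →L[ℝ] H}

theorem sinc_pos' {x : ℝ} (h0 : 0 ≤ x) (h1 : x < Real.pi) : 0 < Real.sinc x := by
  rcases h0.eq_or_lt with rfl | h
  · rw [Real.sinc_zero]
    exact one_pos
  · rw [Real.sinc_of_ne_zero h.ne']
    exact div_pos (Real.sin_pos_of_pos_of_lt_pi h h1) h

theorem cos_pos' {x : ℝ} (h0 : 0 ≤ x) (h1 : x < Real.pi / 2) : 0 < Real.cos x :=
  Real.cos_pos_of_mem_Ioo ⟨by linarith [Real.pi_pos], h1⟩

theorem dec_unique (h : Emb J e0 ι) {α α' : ℂ} {y y' : V}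
    (hh : α • e0 + ι y = α' • e0 + ι y') : α = α' ∧ y = y' := by
  have h1 := congrArg (fun z => (inner ℂ e0 z : ℂ)) hh
  simp only [inner_add_right, inner_smul_right, h.e00, h.orth, mul_one, add_zero] at h1
  rw [h1] at hh
  exact ⟨h1, h.inj (add_left_cancel hh)⟩

theorem S_dec (c : ℝ) (v : V) : S c e0 ι v =
    ((Real.cos (c * ‖v‖) : ℝ) : ℂ) • e0 + ι ((c * Real.sinc (c * ‖v‖)) • v) := by
  unfold S
  rw [map_smul, Complex.coe_smul]

theorem S_inj (h : Emb J e0 ι) {c : ℝ} (hc : 0 < c) {v w : V} (hv : c * ‖v‖ < Real.pi / 2)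
    (hw : c * ‖w‖ < Real.pi / 2) {μ : ℂ} (hμ : ‖μ‖ = 1) (hh : S c e0 ι v = μ • S c e0 ι w) :
    v = w := by
  have hv0 : 0 ≤ c * ‖v‖ := by positivity
  have hw0 : 0 ≤ c * ‖w‖ := by positivity
  have p1 := cos_pos' hv0 hv
  have p2 := cos_pos' hw0 hw
  have h1 := congrArg (fun z => (inner ℂ e0 z : ℂ)) hh
  simp only [inner_smul_right, inner_e0_S h] at h1
  have h2 := congrArg norm h1
  rw [norm_mul, hμ, one_mul, Complex.norm_real, Complex.norm_real, Real.norm_of_nonneg p1.le,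
    Real.norm_of_nonneg p2.le] at h2
  have h3 : μ = 1 := by
    rw [h2] at h1
    have h4 : ((Real.cos (c * ‖w‖) : ℝ) : ℂ) ≠ 0 := by exact_mod_cast p2.ne'
    exact mul_right_cancel₀ h4 (h1.symm.trans (one_mul _).symm)
  have h4 : c * ‖v‖ = c * ‖w‖ := Real.injOn_cos ⟨hv0, by linarith [Real.pi_pos]⟩
    ⟨hw0, by linarith [Real.pi_pos]⟩ h2
  rw [h3, one_smul, S_dec, S_dec, h4] at hh
  have h5 : c * Real.sinc (c * ‖w‖) ≠ 0 :=
    (mul_pos hc (sinc_pos' hw0 (by linarith [Real.pi_pos]))).ne'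
  exact smul_right_injective V h5 (dec_unique h hh).2

/-- the curve `v(t)` with `S (v t) ~ z(t)` -/
def vc (c : ℝ) (J : V →ₗ[ℝ] V) (α₀ α₂ : ℂ) (y₀ y₂ : V) (t : ℝ) : V :=
  FS.lg c (‖Real.cos t • α₀ + Real.sin t • α₂‖ ^ 2) •
    ((conj (Real.cos t • α₀ + Real.sin t • α₂)).re • (Real.cos t • y₀ + Real.sin t • y₂) +
      (conj (Real.cos t • α₀ + Real.sin t • α₂)).im •
        J (Real.cos t • y₀ + Real.sin t • y₂))

theorem contDiffAt_vc [FiniteDimensional ℝ V] {c : ℝ} (hc : c ≠ 0) (J : V →ₗ[ℝ] V) (α₀ α₂ : ℂ)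
    (y₀ y₂ : V) {t : ℝ} (h0 : 0 < ‖Real.cos t • α₀ + Real.sin t • α₂‖)
    (h1 : ‖Real.cos t • α₀ + Real.sin t • α₂‖ < 1) :
    ContDiffAt ℝ ∞ (vc c J α₀ α₂ y₀ y₂) t := by
  have hα : ContDiff ℝ ∞ fun t : ℝ => Real.cos t • α₀ + Real.sin t • α₂ :=
    (Real.contDiff_cos.smul contDiff_const).add (Real.contDiff_sin.smul contDiff_const)
  have hy : ContDiff ℝ ∞ fun t : ℝ => Real.cos t • y₀ + Real.sin t • y₂ :=
    (Real.contDiff_cos.smul contDiff_const).add (Real.contDiff_sin.smul contDiff_const)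
  have hJ : ContDiff ℝ ∞ fun t : ℝ => J (Real.cos t • y₀ + Real.sin t • y₂) :=
    (LinearMap.toContinuousLinearMap J).contDiff.comp hy
  have hre : ContDiff ℝ ∞ fun t : ℝ => (conj (Real.cos t • α₀ + Real.sin t • α₂)).re :=
    Complex.reCLM.contDiff.comp (Complex.conjCLE.contDiff.comp hα)
  have him : ContDiff ℝ ∞ fun t : ℝ => (conj (Real.cos t • α₀ + Real.sin t • α₂)).im :=
    Complex.imCLM.contDiff.comp (Complex.conjCLE.contDiff.comp hα)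
  have hn : ContDiff ℝ ∞ fun t : ℝ => ‖Real.cos t • α₀ + Real.sin t • α₂‖ ^ 2 := hα.norm_sq ℝ
  have hl : ContDiffAt ℝ ∞ (fun t : ℝ => FS.lg c (‖Real.cos t • α₀ + Real.sin t • α₂‖ ^ 2)) t :=
    (contDiffAt_lg c hc (by positivity) (by nlinarith)).comp t hn.contDiffAt
  exact hl.smul ((hre.smul hy).add (him.smul hJ)).contDiffAt

theorem gd_dec' {z₀ z₂ : H} {α₀ α₂ : ℂ} {y₀ y₂ : V}
    (hz₀ : z₀ = α₀ • e0 + ι y₀) (hz₂ : z₂ = α₂ • e0 + ι y₂) (t : ℝ) :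
    gd z₀ z₂ t = (Real.cos t • α₀ + Real.sin t • α₂) • e0 +
      ι (Real.cos t • y₀ + Real.sin t • y₂) := by
  unfold gd
  rw [hz₀, hz₂, map_add, map_smul, map_smul, smul_add, smul_add, add_smul, smul_assoc,
    smul_assoc]
  abel

theorem vc_spec (m : Emb J e0 ι) {c : ℝ} (hc : 0 < c) {z₀ z₂ : H} (h0 : ‖z₀‖ = 1)
    (h2 : ‖z₂‖ = 1) (h : (inner ℂ z₀ z₂ : ℂ) = 0) {α₀ α₂ : ℂ} {y₀ y₂ : V}
    (hz₀ : z₀ = α₀ • e0 + ι y₀) (hz₂ : z₂ = α₂ • e0 + ι y₂) {t : ℝ}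
    (hα : Real.cos t • α₀ + Real.sin t • α₂ ≠ 0) (hy : Real.cos t • y₀ + Real.sin t • y₂ ≠ 0) :
    ‖Real.cos t • α₀ + Real.sin t • α₂‖ < 1 ∧
    c * ‖vc c J α₀ α₂ y₀ y₂ t‖ < Real.pi / 2 ∧ vc c J α₀ α₂ y₀ y₂ t ≠ 0 ∧
      ∃ μ : ℂ, ‖μ‖ = 1 ∧ S c e0 ι (vc c J α₀ α₂ y₀ y₂ t) = μ • gd z₀ z₂ t := by
  have hgd := gd_dec' hz₀ hz₂ t
  have h1 := norm_gd h0 h2 h t
  rw [hgd] at h1
  set α := Real.cos t • α₀ + Real.sin t • α₂ with hαd
  set y := Real.cos t • y₀ + Real.sin t • y₂ with hyd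
  have h3 := m.norm_sq α y
  rw [h1, one_pow] at h3
  obtain ⟨h4, h5⟩ := S_log m hc hα hy h3.symm
  have hα0 : 0 < ‖α‖ := norm_pos_iff.2 hα
  have hy0 : 0 < ‖y‖ := norm_pos_iff.2 hy
  have hα1 : ‖α‖ < 1 := by nlinarith
  have hv : vc c J α₀ α₂ y₀ y₂ t =
      FS.lg c (‖α‖ ^ 2) • ((conj α).re • y + (conj α).im • J y) := rfl
  rw [hv]
  refine ⟨hα1, ?_, ?_, conj α / ‖α‖, ?_, ?_⟩
  · rw [h4, mul_div_cancel₀ _ hc.ne', Real.arccos_lt_pi_div_two]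
    exact hα0
  · rw [← norm_ne_zero_iff, h4]
    exact (div_pos (Real.arccos_pos.2 hα1) hc).ne'
  · rw [norm_div, RCLike.norm_conj, Complex.norm_real, norm_norm, div_self hα0.ne']
  · rw [h5, hgd]

theorem vc_speed [FiniteDimensional ℝ V] (m : Emb J e0 ι) {c : ℝ} (hc : 0 < c) {z₀ z₂ : H}
    (h0 : ‖z₀‖ = 1) (h2 : ‖z₂‖ = 1) (h : (inner ℂ z₀ z₂ : ℂ) = 0) {α₀ α₂ : ℂ} {y₀ y₂ : V}
    (hz₀ : z₀ = α₀ • e0 + ι y₀) (hz₂ : z₂ = α₂ • e0 + ι y₂) {t : ℝ}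
    (hα : Real.cos t • α₀ + Real.sin t • α₂ ≠ 0) (hy : Real.cos t • y₀ + Real.sin t • y₂ ≠ 0)
    {η : ℝ → V} (hη : vc c J α₀ α₂ y₀ y₂ = η) {ρ a : ℝ} {u : V} (hρ : ‖η t‖ = ρ)
    (hu : η t = ρ • u) (ha : inner ℝ u (deriv η t) = a) :
    (c * a) ^ 2 + (Real.sin (c * ρ) / ρ) ^ 2 * (‖deriv η t - a • u‖ ^ 2 -
      Real.sin (c * ρ) ^ 2 * inner ℝ (J u) (deriv η t - a • u) ^ 2) = 1 := by
  obtain ⟨h1, -, h4, μ, hμ, h5⟩ := vc_spec m hc h0 h2 h hz₀ hz₂ hα hy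
  have hs := contDiffAt_vc hc.ne' J α₀ α₂ y₀ y₂ (norm_pos_iff.2 hα) h1
  rw [hη] at hs h4 h5
  have hd : HasDerivAt η (deriv η t) t := (hs.differentiableAt (by simp)).hasDerivAt
  obtain ⟨z', h6, h7⟩ := deriv_S m hc.ne' hd hρ (by rw [← hρ]; exact norm_pos_iff.2 h4) hu ha
  have h8 : ∀ᶠ s in 𝓝 t, fs (S c e0 ι (η t)) (S c e0 ι (η s)) = |s - t| := by
    have h9 : ∀ᶠ s : ℝ in 𝓝 t, |t - s| < Real.pi / 2 := by
      have h10 : ContinuousAt (fun s : ℝ => |t - s|) t :=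
        (continuous_const.sub continuous_id).abs.continuousAt
      refine h10.eventually_lt continuousAt_const ?_
      simp [Real.pi_pos]
    have g1 : Continuous fun s : ℝ => Real.cos s • α₀ + Real.sin s • α₂ :=
      (Real.continuous_cos.smul continuous_const).add (Real.continuous_sin.smul continuous_const)
    have g2 : Continuous fun s : ℝ => Real.cos s • y₀ + Real.sin s • y₂ :=
      (Real.continuous_cos.smul continuous_const).add (Real.continuous_sin.smul continuous_const)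
    filter_upwards [g1.continuousAt.eventually_ne hα, g2.continuousAt.eventually_ne hy, h9]
      with s hs1 hs1' hs2
    obtain ⟨-, -, -, ν, hν, h10⟩ := vc_spec m hc h0 h2 h hz₀ hz₂ hs1 hs1'
    rw [hη] at h10
    rw [h5, h10, fs_smul_left _ _ hμ, fs_smul_right _ _ hν, fs_gd h0 h2 h hs2.le, abs_sub_comm]
  have h9 := norm_Qp_eq_one (z := fun s => S c e0 ι (η s)) (t := t)
    (Eventually.of_forall fun s => norm_S m hc.ne' _) h6 h8
  rw [← h7, h9, one_pow]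

/-- **a curve of unit model speed joining two points in general position** -/
theorem exists_curve [FiniteDimensional ℝ V] (m : Emb J e0 ι) {c : ℝ} (hc : 0 < c) {u w : V}
    (hu : ‖u‖ = 1) {r : ℝ} (hr : 0 < r) (hr' : c * r < Real.pi / 2) (hw : c * ‖w‖ < Real.pi / 2)
    (h1 : (inner ℝ (J u) w : ℝ) ≠ 0) (h2 : ∀ a b : ℝ, w ≠ a • u + b • J u) :
    ∃ (θ : ℝ) (η : ℝ → V), 0 ≤ θ ∧ θ ≤ Real.pi / 2 ∧
      Real.cos θ ^ 2 = (Real.cos (c * r) * Real.cos (c * ‖w‖) +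
        Real.sin (c * r) * (c * Real.sinc (c * ‖w‖)) * inner ℝ u w) ^ 2 +
        (Real.sin (c * r) * (c * Real.sinc (c * ‖w‖)) * inner ℝ (J u) w) ^ 2 ∧
      η 0 = r • u ∧ η θ = w ∧ ∀ t ∈ Icc 0 θ, ContDiffAt ℝ ∞ η t ∧ η t ≠ 0 ∧
        c * ‖η t‖ < Real.pi / 2 ∧ ∀ (ρ a : ℝ) (x : V), ‖η t‖ = ρ → η t = ρ • x →
          inner ℝ x (deriv η t) = a →
          (c * a) ^ 2 + (Real.sin (c * ρ) / ρ) ^ 2 * (‖deriv η t - a • x‖ ^ 2 -
            Real.sin (c * ρ) ^ 2 * inner ℝ (J x) (deriv η t - a • x) ^ 2) = 1 := by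
  have hpi := Real.pi_pos
  have hw0 : 0 ≤ c * ‖w‖ := by positivity
  have hr0 : 0 < c * r := by positivity
  obtain ⟨σ, hσ⟩ : ∃ σ, c * Real.sinc (c * ‖w‖) = σ := ⟨_, rfl⟩
  have hσ0 : 0 < σ := by
    rw [← hσ]
    exact mul_pos hc (sinc_pos' hw0 (by linarith))
  have hc₀ : 0 < Real.cos (c * r) := cos_pos' hr0.le hr'
  have hs₀ : 0 < Real.sin (c * r) := Real.sin_pos_of_pos_of_lt_pi hr0 (by linarith)
  have hc₁ : 0 < Real.cos (c * ‖w‖) := cos_pos' hw0 hw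
  have hru : ‖r • u‖ = r := by rw [norm_smul, hu, mul_one, Real.norm_of_nonneg hr.le]
  have hz₀ : S c e0 ι (r • u) = ((Real.cos (c * r) : ℝ) : ℂ) • e0 + ι (Real.sin (c * r) • u) := by
    rw [S_polar m hc.ne' hu hr, map_smul, Complex.coe_smul]
  have hz₁ : S c e0 ι w = ((Real.cos (c * ‖w‖) : ℝ) : ℂ) • e0 + ι (σ • w) := by
    rw [S_dec, hσ]
  have n₀ : ‖S c e0 ι (r • u)‖ = 1 := norm_S m hc.ne' _
  have n₁ : ‖S c e0 ι w‖ = 1 := norm_S m hc.ne' _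
  rw [hσ]
  generalize Real.cos (c * r) = c₀ at *
  generalize Real.sin (c * r) = s₀ at *
  generalize Real.cos (c * ‖w‖) = c₁ at *
  have hin : (inner ℂ (S c e0 ι (r • u)) (S c e0 ι w) : ℂ) =
      ⟨c₀ * c₁ + s₀ * σ * inner ℝ u w, s₀ * σ * inner ℝ (J u) w⟩ := by
    rw [hz₀, hz₁, inner_add_left, inner_add_right, inner_add_right, inner_smul_left,
      inner_smul_left, inner_smul_right, inner_smul_right, m.e00, m.orth, m.orth', m.inn,
      m.skew, map_smul, real_inner_smul_left, real_inner_smul_left, real_inner_smul_right,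
      real_inner_smul_right]
    apply Complex.ext
    · simp
      ring
    · simp
      ring
  -- `w` is not a complex multiple of `u`
  have hgen : ∀ l : ℂ, ι (σ • w) ≠ l • ι u := by
    intro l hl
    rw [← m.smulc] at hl
    have h3 := m.inj hl
    apply h2 (σ⁻¹ * l.re) (σ⁻¹ * l.im)
    rw [← smul_smul, ← smul_smul, ← smul_add, ← h3, smul_smul, inv_mul_cancel₀ hσ0.ne', one_smul]
  have hpos : 0 < fs (S c e0 ι (r • u)) (S c e0 ι w) := by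
    refine lt_of_le_of_ne (fs_nonneg _ _) fun h => ?_
    obtain ⟨h3, -⟩ := fs_eq_zero n₀ n₁ h.symm
    generalize (inner ℂ (S c e0 ι (r • u)) (S c e0 ι w) : ℂ) = l at h3
    rw [hz₀, hz₁, smul_add, smul_smul, ← m.smulc] at h3
    have h4 := congrArg ι (dec_unique m h3).2
    rw [m.smulc, map_smul ι s₀ u, ← Complex.coe_smul, smul_smul] at h4
    exact hgen _ h4
  obtain ⟨z₂, n₂, o₂, μ, hμ, hend⟩ := exists_gd n₀ n₁ hpos
  have hcos := cos_fs n₀ n₁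
  have hle := fs_le (S c e0 ι (r • u)) (S c e0 ι w)
  generalize fs (S c e0 ι (r • u)) (S c e0 ι w) = θ at *
  obtain ⟨α₂, y₂, hz₂⟩ := m.surj z₂
  have hsin : 0 < Real.sin θ := Real.sin_pos_of_pos_of_lt_pi hpos (by linarith)
  have hμ0 : μ ≠ 0 := by
    rw [← norm_ne_zero_iff, hμ]
    exact one_ne_zero
  have hend' := hend
  rw [gd_dec' hz₀ hz₂, hz₁, smul_add μ, smul_smul μ, ← m.smulc] at hend'
  obtain ⟨e1, e2⟩ := dec_unique m hend'
  have e3 : ι (Real.cos θ • (s₀ • u) + Real.sin θ • y₂) = μ • ι (σ • w) := by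
    rw [e2, m.smulc]
  have hμim : μ.im ≠ 0 := by
    intro h3
    have h4 := inner_gd n₀ n₂ o₂ 0 θ
    have h5 : gd (S c e0 ι (r • u)) z₂ 0 = S c e0 ι (r • u) := by simp [gd]
    rw [h5, hend, inner_smul_right, hin] at h4
    have h6 := congrArg Complex.im h4
    rw [Complex.mul_im, h3, zero_mul, add_zero, Complex.ofReal_im] at h6
    have h7 : μ.re ≠ 0 := fun h8 => hμ0 (Complex.ext h8 h3)
    have h8 : s₀ * σ * inner ℝ (J u) w ≠ 0 := mul_ne_zero (mul_pos hs₀ hσ0).ne' h1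
    exact mul_ne_zero h7 h8 h6
  have hgood : ∀ t ∈ Icc 0 θ, Real.cos t • (c₀ : ℂ) + Real.sin t • α₂ ≠ 0 ∧
      Real.cos t • (s₀ • u) + Real.sin t • y₂ ≠ 0 := by
    intro t ht
    rcases ht.1.eq_or_lt with rfl | ht0
    · rw [Real.cos_zero, Real.sin_zero, one_smul, one_smul, zero_smul, zero_smul, add_zero,
        add_zero]
      refine ⟨by exact_mod_cast hc₀.ne', smul_ne_zero hs₀.ne' ?_⟩
      rw [← norm_ne_zero_iff, hu]
      exact one_ne_zero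
    have hst : 0 < Real.sin t := Real.sin_pos_of_pos_of_lt_pi ht0 (by linarith [ht.2])
    refine ⟨fun h3 => ?_, fun h3 => ?_⟩
    · have h4 := congrArg Complex.im h3
      have h5 := congrArg Complex.im e1
      simp only [Complex.add_im, Complex.smul_im, Complex.ofReal_im, Complex.mul_im,
        Complex.ofReal_re, smul_eq_mul, mul_zero, zero_add, Complex.zero_im] at h4 h5
      have h6 : α₂.im = 0 := (mul_eq_zero.1 h4).resolve_left hst.ne'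
      rw [h6, mul_zero] at h5
      exact mul_ne_zero hμim hc₁.ne' h5.symm
    · have h4 : y₂ = (-(Real.cos t * s₀) / Real.sin t) • u := by
        have h5 : Real.sin t • y₂ = Real.sin t • (-(Real.cos t * s₀) / Real.sin t) • u := by
          rw [smul_smul, mul_div_cancel₀ _ hst.ne']
          linear_combination (norm := module) h3
        exact smul_right_injective V hst.ne' h5
      rw [h4, smul_smul, smul_smul, ← add_smul, map_smul, ← Complex.coe_smul] at e3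
      apply hgen (μ⁻¹ * ((Real.cos θ * s₀ + Real.sin θ * (-(Real.cos t * s₀) / Real.sin t) : ℝ) : ℂ))
      rw [← smul_smul, e3, smul_smul, inv_mul_cancel₀ hμ0, one_smul]
  refine ⟨θ, vc c J c₀ α₂ (s₀ • u) y₂, hpos.le, hle, ?_, ?_, ?_, fun t ht => ?_⟩
  · rw [hcos, hin, Complex.sq_norm, Complex.normSq_mk]
    ring
  · obtain ⟨g1, g2⟩ := hgood 0 (left_mem_Icc.2 hpos.le)
    obtain ⟨-, h3, -, ν, hν, h4⟩ := vc_spec m hc n₀ n₂ o₂ hz₀ hz₂ g1 g2
    have h5 : gd (S c e0 ι (r • u)) z₂ 0 = S c e0 ι (r • u) := by simp [gd]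
    rw [h5] at h4
    exact S_inj m hc h3 (by rw [hru]; exact hr') hν h4
  · obtain ⟨g1, g2⟩ := hgood θ (right_mem_Icc.2 hpos.le)
    obtain ⟨-, h3, -, ν, hν, h4⟩ := vc_spec m hc n₀ n₂ o₂ hz₀ hz₂ g1 g2
    rw [hend, smul_smul] at h4
    exact S_inj m hc h3 hw (by rw [norm_mul, hν, hμ, mul_one]) h4
  · obtain ⟨g1, g2⟩ := hgood t ht
    obtain ⟨h3, h4, h5, -⟩ := vc_spec m hc n₀ n₂ o₂ hz₀ hz₂ g1 g2
    exact ⟨contDiffAt_vc hc.ne' J _ _ _ _ (norm_pos_iff.2 g1) h3, h5, h4,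
      fun ρ a x hρ hx ha => vc_speed m hc n₀ n₂ o₂ hz₀ hz₂ g1 g2 rfl hρ hx ha⟩

end

end Vale.Agent.P231Z
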