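import Mathlib.Algebra.Quaternion
import Mathlib.Algebra.BigOperators.Fin
import Mathlib.Data.Real.Basic

/-! The octonions (Cayley-Dickson doubling of the quaternions) and the Cayley projective plane as
the set of Hermitian idempotent three by three octonion matrices of trace one. -/

namespace Vale.Agent.P231Z

noncomputable section

/-- octonions, as pairs of quaternions -/
abbrev Oct : Type := Quaternion ℝ × Quaternion ℝ

/-- the Cayley-Dickson product `(a, b) (c, d) = (a c - d* b, d a + b c*)` -/
def omul (x y : Oct) : Oct := (x.1 * y.1 - star y.2 * x.2, y.2 * x.1 + x.2 * star y.1)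

/-- the conjugation `(a, b)* = (a*, -b)` -/
def oconj (x : Oct) : Oct := (star x.1, -x.2)

/-- the Euclidean inner product of two octonions -/
def oip (x y : Oct) : ℝ := (x.1 * star y.1).re + (x.2 * star y.2).re

/-- three by three matrices of octonions -/
abbrev Alb : Type := Fin 3 → Fin 3 → Oct

/-- the points of the Cayley plane: Hermitian, idempotent, of trace one -/
def Ver (X : Alb) : Prop :=
  (∀ i j, X j i = oconj (X i j)) ∧ (∀ i k, ∑ j, omul (X i j) (X j k) = X i k) ∧
    ∑ i, (X i i).1.re = 1

/-- the trace form `Re tr (X Y*)` -/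
def ipA (X Y : Alb) : ℝ := ∑ i, ∑ j, oip (X i j) (Y i j)

end

end Vale.Agent.P231Z
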