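import Vale.Agent.P231Z.Oct.Slice
import Vale.Agent.P231Z.Oct.Curve

/-! P231: the law of cosines as an inequality, abstract form. -/

set_option maxSynthPendingDepth 3
set_option linter.unusedSectionVars false

open Set Filter Module
open scoped ContDiff Topology

namespace Vale.Agent.P231Z

noncomputable section

open Vale.Agent.P231 Vale.Agent.P231.H512 Vale.Agent.P231.FS Vale.Agent.P231.WR

variable {V : Type*} [NormedAddCommGroup V] [InnerProductSpace ℝ V] [FiniteDimensional ℝ V]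
  {T : V →ₗ[ℝ] V →ₗ[ℝ] V →ₗ[ℝ] V} {X : Type*} [MetricSpace X]

/-- the vector `sin(c‖v‖) v/‖v‖` -/
def aa (c : ℝ) (v : V) : V := (c * Real.sinc (c * ‖v‖)) • v

/-- the model kernel -/
def KK (c : ℝ) (T : V →ₗ[ℝ] V →ₗ[ℝ] V →ₗ[ℝ] V) (v w : V) : ℝ :=
  Real.cos (c * ‖v‖) ^ 2 * Real.cos (c * ‖w‖) ^ 2 +
    2 * (Real.cos (c * ‖v‖) * Real.cos (c * ‖w‖)) * inner ℝ (aa c v) (aa c w) +
    inner ℝ (T (aa c v) (aa c v) (aa c w)) (aa c w)

/-- the length estimate -/
def LE (c : ℝ) (T : V →ₗ[ℝ] V →ₗ[ℝ] V →ₗ[ℝ] V) (ε : V → X) : Prop :=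
  ∀ (η η' : ℝ → V) (θ : ℝ), 0 ≤ θ → (∀ t ∈ Icc 0 θ, ContDiffAt ℝ ∞ η t ∧
    HasDerivAt η (η' t) t ∧ η t ≠ 0 ∧ c * ‖η t‖ < Real.pi / 2 ∧
    ∀ (ρ a : ℝ) (x : V), ‖η t‖ = ρ → η t = ρ • x → ‖x‖ = 1 → inner ℝ x (η' t) = a →
      (c * a) ^ 2 + (Real.sin (c * ρ) / ρ) ^ 2 * (‖η' t - a • x‖ ^ 2 -
        Real.sin (c * ρ) ^ 2 * inner ℝ (T x x (η' t - a • x)) (η' t - a • x)) ≤ 1) →
    c * dist (ε (η 0)) (ε (η θ)) ≤ θ

theorem aa_polar {c : ℝ} (hc : c ≠ 0) {u : V} (hu : ‖u‖ = 1) {r : ℝ} (hr : 0 < r) :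
    aa c (r • u) = Real.sin (c * r) • u := by
  unfold aa
  have h1 : ‖r • u‖ = r := by rw [norm_smul, hu, mul_one, Real.norm_of_nonneg hr.le]
  rw [h1, Real.sinc_of_ne_zero (mul_ne_zero hc hr.ne'), smul_smul]
  congr 1
  field_simp

theorem aa_zero (c : ℝ) : aa c (0 : V) = 0 := smul_zero _

theorem inner_aa {c : ℝ} (hc : c ≠ 0) (v : V) :
    (inner ℝ (aa c v) (aa c v) : ℝ) = Real.sin (c * ‖v‖) ^ 2 := by
  rcases eq_or_ne v 0 with rfl | hv
  · simp [aa]
  · have h5 : c * ‖v‖ ≠ 0 := mul_ne_zero hc (norm_ne_zero_iff.2 hv)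
    unfold aa
    rw [real_inner_smul_left, real_inner_smul_right, real_inner_self_eq_norm_sq,
      Real.sinc_of_ne_zero h5]
    have := norm_ne_zero_iff.2 hv
    field_simp

theorem continuous_aa (c : ℝ) : Continuous (aa (V := V) c) :=
  (continuous_const.mul (Real.continuous_sinc.comp (continuous_const.mul continuous_norm))).smul
    continuous_id

theorem continuous_KK (c : ℝ) (T : V →ₗ[ℝ] V →ₗ[ℝ] V →ₗ[ℝ] V) {f g : ℝ → V}
    (hf : Continuous f) (hg : Continuous g) : Continuous fun s => KK c T (f s) (g s) := by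
  let T1 : V →ₗ[ℝ] V →ₗ[ℝ] (V →L[ℝ] V) :=
    T.compr₂ (LinearMap.toContinuousLinearMap : (V →ₗ[ℝ] V) ≃ₗ[ℝ] (V →L[ℝ] V)).toLinearMap
  let T2 : V →ₗ[ℝ] (V →L[ℝ] V →L[ℝ] V) :=
    (LinearMap.toContinuousLinearMap :
      (V →ₗ[ℝ] (V →L[ℝ] V)) ≃ₗ[ℝ] (V →L[ℝ] V →L[ℝ] V)).toLinearMap ∘ₗ T1
  have h1 : Continuous T2 := T2.continuous_of_finiteDimensional
  have ha := (continuous_aa c).comp hf
  have hb := (continuous_aa c).comp hg
  have h2 : Continuous fun s => T2 (aa c (f s)) (aa c (f s)) (aa c (g s)) :=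
    ((h1.comp ha).clm_apply ha).clm_apply hb
  have h3 : Continuous fun s => T (aa c (f s)) (aa c (f s)) (aa c (g s)) := h2
  have h4 : Continuous fun s => Real.cos (c * ‖f s‖) :=
    Real.continuous_cos.comp (continuous_const.mul hf.norm)
  have h5 : Continuous fun s => Real.cos (c * ‖g s‖) :=
    Real.continuous_cos.comp (continuous_const.mul hg.norm)
  unfold KK
  exact (((h4.pow 2).mul (h5.pow 2)).add ((continuous_const.mul (h4.mul h5)).mul
    (ha.inner hb))).add (h3.inner hb)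

theorem KK_nonneg (h : OT T) (c : ℝ) (v w : V) : 0 ≤ KK c T v w := by
  have h1 := h.lower' (aa c v) (aa c w)
  unfold KK
  nlinarith [sq_nonneg (Real.cos (c * ‖v‖) * Real.cos (c * ‖w‖) + inner ℝ (aa c v) (aa c w))]

theorem KK_zero (c : ℝ) (w : V) : KK c T 0 w = Real.cos (c * ‖w‖) ^ 2 := by
  unfold KK
  rw [aa_zero]
  simp

theorem KK_self (h : OT T) {c : ℝ} (hc : c ≠ 0) (v : V) : KK c T v v = 1 := by
  unfold KK
  rw [h.self, real_inner_smul_left, inner_aa hc]
  have h1 := Real.cos_sq_add_sin_sq (c * ‖v‖)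
  linear_combination (Real.cos (c * ‖v‖) ^ 2 + Real.sin (c * ‖v‖) ^ 2 + 1) * h1

/-- general position -/
theorem law_gen (h : OT T) {c : ℝ} (hc : 0 < c) {ε : V → X} (hL : LE c T ε) {u w : V}
    (hu : ‖u‖ = 1) {r : ℝ} (hr : 0 < r) (hr' : c * r < Real.pi / 2) (hw : c * ‖w‖ < Real.pi / 2)
    (h1 : T u u w ≠ (inner ℝ u w : ℝ) • u) (h2 : T u u w ≠ w) :
    KK c T (r • u) w ≤ Real.cos (c * dist (ε (r • u)) (ε w)) ^ 2 := by
  obtain ⟨U, J, u', w', hJ, e1, e2, e3, e4, e5, e6⟩ := h.exists_slice (inner_unit hu) h1 h2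
  obtain ⟨e0, ι, m⟩ := exists_emb hJ (cv_finrank hJ)
  subst e1 e2
  obtain ⟨θ, η, t0, t1, t2, t3, t4, t5⟩ := exists_curve m hc (u := u') (w := w') hu hr hr' hw e4 e5
  have h3 := hL (fun t => (η t : V)) (fun t => (deriv η t : U)) θ t0 fun t ht => by
    obtain ⟨s1, s2, s3, s4⟩ := t5 t ht
    have hd : HasDerivAt η (deriv η t) t := (s1.differentiableAt (by simp)).hasDerivAt
    refine ⟨U.subtypeL.contDiff.contDiffAt.comp t s1,
      U.subtypeL.hasFDerivAt.comp_hasDerivAt t hd, fun h4 => s2 (Subtype.ext h4), s3,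
      fun ρ a x hρ hx hx1 ha => ?_⟩
    have hρ0 : ρ ≠ 0 := by
      rw [← hρ, norm_ne_zero_iff]
      exact fun h4 => s2 (Subtype.ext h4)
    have hxU : x ∈ U := by
      have h4 : x = ρ⁻¹ • (η t : V) := by
        rw [hx, smul_smul, inv_mul_cancel₀ hρ0, one_smul]
      rw [h4]
      exact U.smul_mem _ (η t).2
    have h4 := s4 ρ a ⟨x, hxU⟩ hρ (Subtype.ext hx) ha
    have h5 := e3 ⟨x, hxU⟩ (deriv η t - a • ⟨x, hxU⟩) hx1
    rw [← h4]
    have h6 : ‖((deriv η t : U) : V) - a • x‖ = ‖deriv η t - a • (⟨x, hxU⟩ : U)‖ := rfl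
    have h7 : ((deriv η t - a • (⟨x, hxU⟩ : U) : U) : V) = ((deriv η t : U) : V) - a • x := rfl
    rw [h7] at h5
    rw [h6]
    have h8 := mul_le_mul_of_nonneg_left h5 (sq_nonneg (Real.sin (c * ρ)))
    have h9 := mul_le_mul_of_nonneg_left h8 (sq_nonneg (Real.sin (c * ρ) / ρ))
    linarith
  simp only [t3, t4] at h3
  have h4 : ((r • u' : U) : V) = r • (u' : V) := rfl
  rw [h4] at h3
  have h5 : Real.cos θ ≤ Real.cos (c * dist (ε (r • (u' : V))) (ε w')) :=
    Real.cos_le_cos_of_nonneg_of_le_pi (by positivity) (by linarith [Real.pi_pos]) h3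
  have h6 : 0 ≤ Real.cos θ :=
    Real.cos_nonneg_of_neg_pi_div_two_le_of_le (by linarith [Real.pi_pos]) t1
  refine le_trans (le_of_eq ?_) (pow_le_pow_left₀ h6 h5 2)
  have hru : ‖r • (u' : V)‖ = r := by rw [norm_smul, hu, mul_one, Real.norm_of_nonneg hr.le]
  have h7 : (inner ℝ u' w' : ℝ) = inner ℝ (u' : V) (w' : V) := rfl
  have h8 : ‖w'‖ = ‖(w' : V)‖ := rfl
  rw [t2, h7, h8]
  unfold KK
  rw [aa_polar hc.ne' hu hr, hru]
  unfold aa
  simp only [map_smul, LinearMap.smul_apply, real_inner_smul_left, real_inner_smul_right, e6]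
  ring

theorem eventually_ne_zero (q : V) {j : V} (hj : j ≠ 0) :
    ∀ᶠ s : ℝ in 𝓝[>] 0, q + s • j ≠ 0 := by
  rcases eq_or_ne q 0 with rfl | hq
  · filter_upwards [self_mem_nhdsWithin] with s hs
    rw [zero_add]
    exact smul_ne_zero (ne_of_gt hs) hj
  · have h1 : ContinuousAt (fun s : ℝ => q + s • j) 0 :=
      (continuous_const.add (continuous_id.smul continuous_const)).continuousAt
    exact nhdsWithin_le_nhds (h1.eventually_ne (by simpa using hq))

theorem le_of_family {c : ℝ} {ε : V → X} (hε : Continuous ε) {f g : ℝ → V}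
    (hf : Continuous f) (hg : Continuous g)
    (h : ∀ᶠ s : ℝ in 𝓝[>] 0, KK c T (f s) (g s) ≤ Real.cos (c * dist (ε (f s)) (ε (g s))) ^ 2) :
    KK c T (f 0) (g 0) ≤ Real.cos (c * dist (ε (f 0)) (ε (g 0))) ^ 2 := by
  have h1 := continuous_KK c T hf hg
  have h2 : Continuous fun s => Real.cos (c * dist (ε (f s)) (ε (g s))) ^ 2 :=
    (Real.continuous_cos.comp (continuous_const.mul ((hε.comp hf).dist (hε.comp hg)))).pow 2
  exact le_of_tendsto_of_tendsto ((h1.tendsto 0).mono_left nhdsWithin_le_nhds)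
    ((h2.tendsto 0).mono_left nhdsWithin_le_nhds) h

/-- **the law of cosines as an inequality** -/
theorem law (h : OT T) (hrank : ∀ u : V, ‖u‖ = 1 → finrank ℝ (LinearMap.range (T u u)) = 8)
    (hdim : finrank ℝ V = 16) {c : ℝ} (hc : 0 < c) {ε : V → X} (hε : Continuous ε)
    (hL : LE c T ε) {v w : V} (hv : c * ‖v‖ ≤ Real.pi / 2) (hw : c * ‖w‖ ≤ Real.pi / 2) :
    KK c T v w ≤ Real.cos (c * dist (ε v) (ε w)) ^ 2 := by
  have hpi := Real.pi_pos
  have step : ∀ (u w : V) (r : ℝ), ‖u‖ = 1 → 0 < r → c * r < Real.pi / 2 →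
      c * ‖w‖ < Real.pi / 2 → KK c T (r • u) w ≤ Real.cos (c * dist (ε (r • u)) (ε w)) ^ 2 := by
    intro u w r hu hr hr' hw
    have hu1 := inner_unit hu
    have hself : T u u u = u := by rw [h.self, hu1, one_smul]
    obtain ⟨n, hn1, -⟩ := exists_orth (W := LinearMap.ker (T u u)) (k := 0) ![]
      (by rw [ker_rank hrank hdim hu1]; norm_num)
    obtain ⟨j, hj1, hj2⟩ := exists_orth (W := LinearMap.range (T u u)) (k := 1)
      ![⟨u, ⟨u, hself⟩⟩] (by rw [hrank u hu]; norm_num)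
    have hn : T u u (n : V) = 0 := n.2
    have hj : T u u (j : V) = j := by
      obtain ⟨z, hz⟩ := j.2
      rw [← hz, h.idem, hu1, one_smul]
    have hju : (inner ℝ u (j : V) : ℝ) = 0 := by
      rw [real_inner_comm]
      exact hj2 0
    have hn0 : (n : V) ≠ 0 := fun h0 => by
      have h1 : (inner ℝ (n : V) (n : V) : ℝ) = 1 := hn1
      rw [h0, inner_zero_left] at h1
      exact zero_ne_one h1
    have hj0 : (j : V) ≠ 0 := fun h0 => by
      have h1 : (inner ℝ (j : V) (j : V) : ℝ) = 1 := hj1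
      rw [h0, inner_zero_left] at h1
      exact zero_ne_one h1
    have hg : Continuous fun s : ℝ => w + s • ((j : V) + n) :=
      continuous_const.add (continuous_id.smul continuous_const)
    have h1 := le_of_family (T := T) (c := c) hε (f := fun _ => r • u) continuous_const hg (by
      have h2 : ∀ᶠ s : ℝ in 𝓝 0, c * ‖w + s • ((j : V) + n)‖ < Real.pi / 2 :=
        (continuous_const.mul hg.norm).continuousAt.eventually_lt continuousAt_const
          (by simpa using hw)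
      filter_upwards [nhdsWithin_le_nhds h2,
        eventually_ne_zero (T u u w - (inner ℝ u w : ℝ) • u) hj0,
        eventually_ne_zero (w - T u u w) hn0] with s s1 s2 s3
      refine law_gen h hc hL hu hr hr' s1 (fun h3 => s2 ?_) fun h3 => s3 ?_
      · rw [map_add, map_smul, map_add, hj, hn, inner_add_right, real_inner_smul_right,
          inner_add_right, hju, h.orth hn] at h3
        linear_combination (norm := module) h3
      · rw [map_add, map_smul, map_add, hj, hn] at h3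
        linear_combination (norm := module) -h3)
    simpa using h1
  obtain ⟨u, hu, hvu⟩ : ∃ u : V, ‖u‖ = 1 ∧ v = ‖v‖ • u := by
    rcases eq_or_ne v 0 with rfl | hv0
    · obtain ⟨u, hu, -⟩ := exists_orth (W := V) (k := 0) ![] (by omega)
      exact ⟨u, norm_unit hu, by simp⟩
    · have hn := norm_ne_zero_iff.2 hv0
      exact ⟨‖v‖⁻¹ • v, by rw [norm_smul, norm_inv, norm_norm, inv_mul_cancel₀ hn],
        by rw [smul_smul, mul_inv_cancel₀ hn, one_smul]⟩
  have hr0 := norm_nonneg v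
  generalize ‖v‖ = r at *
  subst hvu
  have hf : Continuous fun s : ℝ => ((1 - s) * r + s * (Real.pi / 4 / c)) • u :=
    (((continuous_const.sub continuous_id).mul continuous_const).add
      (continuous_id.mul continuous_const)).smul continuous_const
  have hg : Continuous fun s : ℝ => (1 - s) • w :=
    (continuous_const.sub continuous_id).smul continuous_const
  have h1 := le_of_family (T := T) (c := c) hε hf hg (by
    filter_upwards [Ioo_mem_nhdsGT (zero_lt_one (α := ℝ))] with s hs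
    have h2 : 0 < 1 - s := sub_pos.2 hs.2
    have h3 := hs.1
    have h4 : c * (Real.pi / 4 / c) = Real.pi / 4 := by field_simp
    refine step u _ _ hu (by positivity) ?_ ?_
    · have h5 : c * ((1 - s) * r + s * (Real.pi / 4 / c)) =
          (1 - s) * (c * r) + s * (Real.pi / 4) := by
        linear_combination s * h4
      rw [h5]
      nlinarith
    · rw [norm_smul, Real.norm_of_nonneg h2.le]
      have h5 : 0 ≤ c * ‖w‖ := by positivity
      nlinarith)
  simpa using h1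

end

end Vale.Agent.P231Z
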