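import Vale.Agent.P231.WR.QAlg2

/-! P231: the operator form `T` for an arbitrary cut multiplicity (linear algebra). -/

set_option maxSynthPendingDepth 3
set_option linter.unusedSectionVars false

open Module Set

namespace Vale.Agent.P231Z

noncomputable section

open Vale.Agent.P231 Vale.Agent.P231.H512 Vale.Agent.P231.WR

variable {V : Type*} [NormedAddCommGroup V] [InnerProductSpace ℝ V]

/-- `T u u` is `‖u‖²` times the projection onto `ℝ u + L_u` -/
structure OT (T : V →ₗ[ℝ] V →ₗ[ℝ] V →ₗ[ℝ] V) : Prop where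
  comm : ∀ a b w, T a b w = T b a w
  symm : ∀ a b w w', (inner ℝ (T a b w) w' : ℝ) = inner ℝ w (T a b w')
  pair : ∀ a b c d, (inner ℝ (T a b c) d : ℝ) = inner ℝ (T c d a) b
  idem : ∀ u w, T u u (T u u w) = (inner ℝ u u : ℝ) • T u u w
  self : ∀ u, T u u u = (inner ℝ u u : ℝ) • u
  clos : ∀ u v w, T u u v = (inner ℝ u u : ℝ) • v →
    (inner ℝ u u : ℝ) • T v v w = (inner ℝ v v : ℝ) • T u u w

variable {T : V →ₗ[ℝ] V →ₗ[ℝ] V →ₗ[ℝ] V}

theorem OT.zero_symm (h : OT T) {u v : V} (huv : T u u v = 0) : T v v u = 0 := by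
  have h1 : (inner ℝ (T v v u) u : ℝ) = 0 := by rw [h.pair, huv, inner_zero_left]
  have h2 : (inner ℝ (T v v u) (T v v u) : ℝ) = 0 := by
    rw [← h.symm v v (T v v u) u, h.idem, inner_smul_left, h1, mul_zero]
  exact inner_self_eq_zero.1 h2

theorem OT.mul_zero (h : OT T) {u v : V} (huv : T u u v = 0) (w : V) :
    T v v (T u u w) = 0 := by
  rcases eq_or_ne u 0 with rfl | hu
  · simp
  · have h1 : T u u (T u u w) = (inner ℝ u u : ℝ) • T u u w := h.idem u w
    have h2 := h.clos u (T u u w) v h1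
    rw [huv, smul_zero] at h2
    have h3 : T (T u u w) (T u u w) v = 0 :=
      (smul_eq_zero.1 h2).resolve_left (inner_self_ne_zero.2 hu)
    exact h.zero_symm h3

theorem OT.orth (h : OT T) {u v : V} (huv : T u u v = 0) : (inner ℝ u v : ℝ) = 0 := by
  rcases eq_or_ne u 0 with rfl | hu
  · simp
  · have h1 := h.symm u u u v
    rw [h.self, huv, inner_smul_left, inner_zero_right] at h1
    exact (mul_eq_zero.1 h1).resolve_left (by simpa using hu)

theorem OT.expand (h : OT T) {u v : V} (huv : T u u v = 0) (w : V) (s : ℝ) :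
    s • ((2 : ℝ) • T u u (T u v w) + (2 : ℝ) • T u v (T u u w) -
      (2 * inner ℝ u u : ℝ) • T u v w) +
    s ^ 2 • ((4 : ℝ) • T u v (T u v w) - (inner ℝ u u : ℝ) • T v v w -
      (inner ℝ v v : ℝ) • T u u w) +
    s ^ 3 • ((2 : ℝ) • T u v (T v v w) + (2 : ℝ) • T v v (T u v w) -
      (2 * inner ℝ v v : ℝ) • T u v w) = 0 := by
  have h0 := h.orth huv
  have h0' : (inner ℝ v u : ℝ) = 0 := by rw [real_inner_comm]; exact h0
  have h1 := h.idem (u + s • v) w
  have h2 : ∀ x, T v u x = T u v x := fun x => h.comm v u x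
  have h3 := h.mul_zero huv w
  have h4 := h.mul_zero (h.zero_symm huv) w
  have h5 := h.idem u w
  have h6 := h.idem v w
  simp only [map_add, map_smul, LinearMap.add_apply, LinearMap.smul_apply, inner_add_left,
    inner_add_right, inner_smul_left, inner_smul_right, RCLike.conj_to_real, h0, h0', h2, h3, h4,
    h5, h6, smul_add, smul_zero, add_zero, zero_add] at h1
  rw [← sub_eq_zero] at h1
  rw [← h1]
  module

theorem OT.XX (h : OT T) {u v : V} (huv : T u u v = 0) (w : V) :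
    (4 : ℝ) • T u v (T u v w) = (inner ℝ u u : ℝ) • T v v w + (inner ℝ v v : ℝ) • T u u w := by
  have h1 := h.expand huv w 1
  have h2 := h.expand huv w (-1)
  linear_combination (norm := module) ((1 : ℝ) / 2) • h1 + ((1 : ℝ) / 2) • h2

theorem OT.AX (h : OT T) {u v : V} (huv : T u u v = 0) (w : V) :
    T u u (T u v w) + T u v (T u u w) = (inner ℝ u u : ℝ) • T u v w := by
  have h1 := h.expand huv w 1
  have h2 := h.expand huv w (-1)
  have h3 := h.expand huv w 2
  linear_combination (norm := module) ((1 : ℝ) / 2) • h1 - ((1 : ℝ) / 4) • (h1 + h2) - ((1 : ℝ) / 12) • (h3 - (3 : ℝ) • h1 - h2)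

theorem OT.expand_self (h : OT T) {u v : V} (huv : T u u v = 0) (s : ℝ) :
    s • ((2 : ℝ) • T u v u - (inner ℝ u u : ℝ) • v) +
    s ^ 2 • ((2 : ℝ) • T u v v - (inner ℝ v v : ℝ) • u) = 0 := by
  have h0 := h.orth huv
  have h0' : (inner ℝ v u : ℝ) = 0 := by rw [real_inner_comm]; exact h0
  have h1 := h.self (u + s • v)
  have h2 : ∀ x, T v u x = T u v x := fun x => h.comm v u x
  have h3 := h.zero_symm huv
  have h5 := h.self u
  have h6 := h.self v
  simp only [map_add, map_smul, LinearMap.add_apply, LinearMap.smul_apply, inner_add_left,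
    inner_add_right, inner_smul_left, inner_smul_right, RCLike.conj_to_real, h0, h0', h2, h3,
    h5, h6, huv, smul_add, smul_zero, add_zero, zero_add] at h1
  rw [← sub_eq_zero] at h1
  rw [← h1]
  module

theorem OT.Xu (h : OT T) {u v : V} (huv : T u u v = 0) :
    (2 : ℝ) • T u v u = (inner ℝ u u : ℝ) • v := by
  have h1 := h.expand_self huv 1
  have h2 := h.expand_self huv (-1)
  linear_combination (norm := module) ((1 : ℝ) / 2) • h1 - ((1 : ℝ) / 2) • h2

theorem OT.Xv (h : OT T) {u v : V} (huv : T u u v = 0) :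
    (2 : ℝ) • T u v v = (inner ℝ v v : ℝ) • u := by
  have h1 := h.expand_self huv 1
  have h2 := h.expand_self huv (-1)
  linear_combination (norm := module) ((1 : ℝ) / 2) • h1 + ((1 : ℝ) / 2) • h2

/-! ### a base point `u₀` -/

variable {u₀ : V}

theorem OT.clos1 (h : OT T) (hu : (inner ℝ u₀ u₀ : ℝ) = 1) {b : V} (hb : T u₀ u₀ b = b) (w : V) :
    T b b w = (inner ℝ b b : ℝ) • T u₀ u₀ w := by
  have h1 := h.clos u₀ b w (by rw [hu, one_smul, hb])
  rwa [hu, one_smul] at h1

theorem OT.kill (h : OT T) {v b : V} (hv : T u₀ u₀ v = 0)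
    (hb : T u₀ u₀ b = b) : T v v b = 0 := by
  have h1 := h.mul_zero hv b
  rwa [hb] at h1

theorem OT.kill' (h : OT T) (hu : (inner ℝ u₀ u₀ : ℝ) = 1) {v b : V} (hv : T u₀ u₀ v = 0)
    (hb : T u₀ u₀ b = b) : T b b v = 0 := by
  rw [h.clos1 hu hb, hv, smul_zero]

theorem OT.rho_one (h : OT T) (hu : (inner ℝ u₀ u₀ : ℝ) = 1) {v : V} (hv : T u₀ u₀ v = 0) :
    rho T u₀ u₀ v = v := by
  rw [rho_apply, h.Xu hv, hu, one_smul]

theorem OT.rho_mem (h : OT T) (hu : (inner ℝ u₀ u₀ : ℝ) = 1) {v y : V} (hv : T u₀ u₀ v = 0)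
    (hy : T u₀ u₀ y = y) : T u₀ u₀ (rho T u₀ y v) = 0 := by
  have h1 := h.AX hv y
  rw [hy, hu, one_smul] at h1
  rw [rho_apply, map_smul, add_eq_right.1 h1, smul_zero]

theorem OT.rho_XX (h : OT T) {v y : V} (hv : T u₀ u₀ v = 0)
    (hy : T u₀ u₀ y = y) :
    (2 : ℝ) • T u₀ v (rho T u₀ y v) = (inner ℝ v v : ℝ) • y := by
  have h1 := h.XX hv y
  rw [h.kill hv hy, hy, smul_zero, zero_add] at h1
  rw [← h1, rho_apply, map_smul, smul_smul]
  norm_num

theorem OT.rho_fib (h : OT T) (hu : (inner ℝ u₀ u₀ : ℝ) = 1) {v y : V} (hv : T u₀ u₀ v = 0)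
    (hy : T u₀ u₀ y = y) :
    T v v (rho T u₀ y v) = (inner ℝ v v : ℝ) • rho T u₀ y v := by
  have h1 := h.XX hv (rho T u₀ y v)
  rw [h.rho_mem hu hv hy, smul_zero, add_zero, hu, one_smul] at h1
  have h2 : T u₀ v ((2 : ℝ) • T u₀ v (rho T u₀ y v)) = T u₀ v ((inner ℝ v v : ℝ) • y) := by
    rw [h.rho_XX hv hy]
  rw [map_smul, map_smul] at h2
  rw [← h1, rho_apply u₀ y v, smul_smul, mul_comm, ← smul_smul, ← h2, smul_smul,
    ← rho_apply u₀ y v]
  norm_num

theorem OT.rho_inner (h : OT T) {v y : V} (hv : T u₀ u₀ v = 0)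
    (hy : T u₀ u₀ y = y) (y' : V) :
    (inner ℝ (rho T u₀ y v) (rho T u₀ y' v) : ℝ) = inner ℝ y y' * inner ℝ v v := by
  have h2 : (inner ℝ ((2 : ℝ) • T u₀ v (rho T u₀ y v)) y' : ℝ) =
      inner ℝ ((inner ℝ v v : ℝ) • y) y' := by rw [h.rho_XX hv hy]
  rw [inner_smul_left, inner_smul_left, h.symm] at h2
  simp only [RCLike.conj_to_real] at h2
  rw [rho_apply u₀ y' v, inner_smul_right, h2, mul_comm]

/-- `ρ y` is skew-symmetric up to a scalar part -/
theorem OT.rho_skew (h : OT T) {v : V} (y : V) (hv : T u₀ u₀ v = 0) :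
    (inner ℝ (rho T u₀ y v) v : ℝ) = inner ℝ u₀ y * inner ℝ v v := by
  have h2 : (inner ℝ ((2 : ℝ) • T u₀ v v) y : ℝ) = inner ℝ ((inner ℝ v v : ℝ) • u₀) y := by
    rw [h.Xv hv]
  rw [inner_smul_left, inner_smul_left] at h2
  simp only [RCLike.conj_to_real] at h2
  rw [rho_apply, inner_smul_left, h.symm, real_inner_comm]
  simp only [RCLike.conj_to_real]
  rw [h2, mul_comm]

/-- polarised version of `rho_skew` -/
theorem OT.rho_skew2 (h : OT T) {v w : V} (y : V) (hv : T u₀ u₀ v = 0) (hw : T u₀ u₀ w = 0) :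
    (inner ℝ (rho T u₀ y v) w : ℝ) + inner ℝ (rho T u₀ y w) v =
      2 * inner ℝ u₀ y * inner ℝ v w := by
  have h1 := h.rho_skew y (v := v + w) (by rw [map_add, hv, hw, add_zero])
  have h2 := h.rho_skew y hv
  have h3 := h.rho_skew y hw
  simp only [map_add, inner_add_left, inner_add_right] at h1
  rw [real_inner_comm v w] at h1
  linarith

/-- the base point may be moved inside the fibre -/
theorem OT.shift (h : OT T) (hu : (inner ℝ u₀ u₀ : ℝ) = 1) {b v : V} (hb : T u₀ u₀ b = b)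
    (hv : T u₀ u₀ v = 0) (w : V) :
    T b (rho T u₀ b v) w = (inner ℝ b b : ℝ) • T u₀ v w := by
  rcases eq_or_ne v 0 with rfl | hv0
  · simp
  have hvv : (inner ℝ v v : ℝ) ≠ 0 := inner_self_ne_zero.2 hv0
  set r := rho T u₀ b v with hr
  have hr0 : T u₀ u₀ r = 0 := h.rho_mem hu hv hb
  have a1 : (2 : ℝ) • T u₀ v b = r := rfl
  have a2 := h.rho_XX hv hb
  rw [← hr] at a2
  have a3 := h.rho_fib hu hv hb
  rw [← hr] at a3
  have a4 := h.kill hv hb
  have a5 : ∀ x, T v u₀ x = T u₀ v x := fun x => h.comm v u₀ x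
  have c1 : (inner ℝ u₀ v : ℝ) = 0 := h.orth hv
  have c1' : (inner ℝ v u₀ : ℝ) = 0 := by rw [real_inner_comm]; exact c1
  have c2 : (inner ℝ b r : ℝ) = 0 := h.orth (h.kill' hu hr0 hb)
  have c2' : (inner ℝ r b : ℝ) = 0 := by rw [real_inner_comm]; exact c2
  have c3 : (inner ℝ r r : ℝ) = inner ℝ b b * inner ℝ v v := h.rho_inner hv hb b
  have h1 : T (u₀ + v) (u₀ + v) (b + r) = (inner ℝ (u₀ + v) (u₀ + v) : ℝ) • (b + r) := by
    simp only [map_add, LinearMap.add_apply, inner_add_left, inner_add_right, a5, hb, hr0, a3, a4,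
      c1, c1', hu]
    linear_combination (norm := module) a1 + a2
  have h2 := h.clos (u₀ + v) (b + r) w h1
  have a6 : ∀ x, T r b x = T b r x := fun x => h.comm r b x
  have h3 := h.clos v r w a3
  rw [c3, mul_comm, ← smul_smul] at h3
  have h4 : T r r w = (inner ℝ b b : ℝ) • T v v w := smul_right_injective V hvv h3
  simp only [map_add, LinearMap.add_apply, inner_add_left, inner_add_right, a5, a6, c1, c1', c2,
    c2', c3, hu, h4, h.clos1 hu hb] at h2
  have h5 : (1 + inner ℝ v v : ℝ) ≠ 0 := by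
    have := real_inner_self_nonneg (x := v)
    positivity
  have h6 : (1 + inner ℝ v v : ℝ) • T b r w = (1 + inner ℝ v v : ℝ) • (inner ℝ b b : ℝ) • T u₀ v w := by
    linear_combination (norm := module) ((1 : ℝ) / 2) • h2
  exact smul_right_injective V h5 h6

/-- the quadratic relation -/
theorem OT.rho_sq (h : OT T) (hu : (inner ℝ u₀ u₀ : ℝ) = 1) {b v : V} (hb : T u₀ u₀ b = b)
    (hv : T u₀ u₀ v = 0) :
    rho T u₀ b (rho T u₀ b v) =
      (2 * inner ℝ u₀ b : ℝ) • rho T u₀ b v - (inner ℝ b b : ℝ) • v := by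
  have hu' : T u₀ u₀ u₀ = u₀ := by rw [h.self, hu, one_smul]
  have hbu : T u₀ u₀ (b + u₀) = b + u₀ := by rw [map_add, hb, hu']
  set r := rho T u₀ b v with hr
  have hr0 : T u₀ u₀ r = 0 := h.rho_mem hu hv hb
  have e1 := h.Xu (h.kill' hu hr0 hbu)
  have e2 := h.Xu (h.kill' hu hr0 hb)
  have e3 := h.Xu hr0
  have e4 := h.shift hu hb hv u₀
  have e5 := h.Xu hv
  rw [← hr] at e4
  rw [hu, one_smul] at e3 e5
  simp only [map_add, LinearMap.add_apply, inner_add_left, inner_add_right, hu,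
    real_inner_comm b u₀] at e1
  rw [rho_apply, real_inner_comm b u₀]
  linear_combination (norm := module) e1 - e2 - e3 - (2 : ℝ) • e4 - (inner ℝ b b : ℝ) • e5

/-- polarised -/
theorem OT.rho_anti (h : OT T) (hu : (inner ℝ u₀ u₀ : ℝ) = 1) {b c v : V} (hb : T u₀ u₀ b = b)
    (hc : T u₀ u₀ c = c) (hv : T u₀ u₀ v = 0) :
    rho T u₀ b (rho T u₀ c v) + rho T u₀ c (rho T u₀ b v) =
      (2 * inner ℝ u₀ b : ℝ) • rho T u₀ c v + (2 * inner ℝ u₀ c : ℝ) • rho T u₀ b v -
        (2 * inner ℝ b c : ℝ) • v := by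
  have h1 := h.rho_sq hu (b := b + c) (by rw [map_add, hb, hc]) hv
  have h2 := h.rho_sq hu hb hv
  have h3 := h.rho_sq hu hc hv
  simp only [map_add, LinearMap.add_apply, inner_add_left, inner_add_right] at h1
  rw [real_inner_comm b c] at h1
  linear_combination (norm := module) h1 - h2 - h3

/-- the first key identity -/
theorem OT.key1 (h : OT T) (hu : (inner ℝ u₀ u₀ : ℝ) = 1) {a c v : V} {m : V →ₗ[ℝ] V}
    (ha : T u₀ u₀ a = a) (hv : T u₀ u₀ v = 0)
    (hm : ∀ v, T u₀ u₀ v = 0 → rho T u₀ c v = m (rho T u₀ a v)) :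
    (2 : ℝ) • T a v c = (inner ℝ a a : ℝ) • m v := by
  rcases eq_or_ne a 0 with rfl | ha0
  · simp
  have haa : (inner ℝ a a : ℝ) ≠ 0 := inner_self_ne_zero.2 ha0
  have hu' : T u₀ u₀ u₀ = u₀ := by rw [h.self, hu, one_smul]
  set a' : V := (2 * inner ℝ u₀ a : ℝ) • u₀ - a with ha'
  have ha'Q : T u₀ u₀ a' = a' := by rw [ha', map_sub, map_smul, hu', ha]
  set v' : V := rho T u₀ a' v with hv'
  have hv'0 : T u₀ u₀ v' = 0 := h.rho_mem hu hv ha'Q
  have e1 : rho T u₀ a v' = (inner ℝ a a : ℝ) • v := by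
    rw [hv', ha', map_sub, map_smul, LinearMap.sub_apply, LinearMap.smul_apply, h.rho_one hu hv,
      map_sub, map_smul, h.rho_sq hu ha hv]
    module
  have e2 := h.shift hu ha hv'0 c
  rw [e1, map_smul, LinearMap.smul_apply] at e2
  have e3 : T a v c = T u₀ v' c := smul_right_injective V haa e2
  rw [e3, ← rho_apply, hm v' hv'0, e1, map_smul]

/-- the second key identity -/
theorem OT.key2 (h : OT T) (hu : (inner ℝ u₀ u₀ : ℝ) = 1) {a c v : V} {m : V →ₗ[ℝ] V}
    (ha : T u₀ u₀ a = a) (hc : T u₀ u₀ c = c) (hv : T u₀ u₀ v = 0)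
    (hm : ∀ v, T u₀ u₀ v = 0 → rho T u₀ c v = m (rho T u₀ a v)) :
    (2 : ℝ) • T a v (m v) = (inner ℝ v v : ℝ) • c := by
  rcases eq_or_ne v 0 with rfl | hv0
  · simp
  have hvv : (inner ℝ v v : ℝ) ≠ 0 := inner_self_ne_zero.2 hv0
  rcases eq_or_ne a 0 with rfl | ha0
  · have h1 := h.rho_inner hv hc c
    rw [hm v hv] at h1
    simp only [map_zero, LinearMap.zero_apply, inner_zero_left] at h1
    have h2 : (inner ℝ c c : ℝ) = 0 := (mul_eq_zero.1 h1.symm).resolve_right hvv
    rw [inner_self_eq_zero.1 h2]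
    simp
  have haa : (inner ℝ a a : ℝ) ≠ 0 := inner_self_ne_zero.2 ha0
  have e1 := h.key1 hu ha hv hm
  have e2 := h.XX (h.kill' hu hv ha) c
  rw [h.kill hv hc, smul_zero, zero_add, h.clos1 hu ha, hc] at e2
  have e3 : T a v ((2 : ℝ) • T a v c) = T a v ((inner ℝ a a : ℝ) • m v) := by rw [e1]
  rw [map_smul, map_smul] at e3
  have e4 : (inner ℝ a a : ℝ) • (2 : ℝ) • T a v (m v) =
      (inner ℝ a a : ℝ) • (inner ℝ v v : ℝ) • c := by
    linear_combination (norm := module) e2 - (2 : ℝ) • e3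
  exact smul_right_injective V haa e4

/-- the fibre condition -/
theorem OT.key3 (h : OT T) (hu : (inner ℝ u₀ u₀ : ℝ) = 1) {a c v x : V}
    (ha : T u₀ u₀ a = a) (hc : T u₀ u₀ c = c) (hv : T u₀ u₀ v = 0) (hx : T u₀ u₀ x = x)
    (hm : ∀ v, T u₀ u₀ v = 0 → rho T u₀ c v = rho T u₀ x (rho T u₀ a v)) :
    T (a + v) (a + v) (c + rho T u₀ x v) =
      (inner ℝ (a + v) (a + v) : ℝ) • (c + rho T u₀ x v) := by
  have e1 := h.key1 hu ha hv hm
  have e2 := h.key2 hu ha hc hv hm
  have e3 := h.clos1 hu ha c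
  rw [hc] at e3
  have e4 := h.kill hv hc
  have e5 := h.rho_fib hu hv hx
  have e6 := h.clos1 hu ha (rho T u₀ x v)
  rw [h.rho_mem hu hv hx, smul_zero] at e6
  have e7 : (inner ℝ a v : ℝ) = 0 := h.orth (h.kill' hu hv ha)
  have e7' : (inner ℝ v a : ℝ) = 0 := by rw [real_inner_comm]; exact e7
  have e8 : ∀ z, T v a z = T a v z := fun z => h.comm v a z
  simp only [map_add, LinearMap.add_apply, inner_add_left, inner_add_right, e3, e4, e5, e6, e7,
    e7', e8]
  linear_combination (norm := module) e1 + e2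

section

variable {P : V → V →ₗ[ℝ] V} {B : V →ₗ[ℝ] V →ₗ[ℝ] V →ₗ[ℝ] V →ₗ[ℝ] ℝ} [FiniteDimensional ℝ V]

theorem TQ_clos_unit' (h : QData P B)
    (hr : ∀ u, ‖u‖ = 1 → finrank ℝ (LinearMap.range (P u)) = 7)
    (hsame : ∀ u u' w, ‖u‖ = 1 → ‖u'‖ = 1 → P u u' = u' →
      (inner ℝ u w : ℝ) • u + P u w = (inner ℝ u' w : ℝ) • u' + P u' w)
    {u v : V} (hu : ‖u‖ = 1) (hv : ‖v‖ = 1) (huv : TQ B u u v = v) (w : V) :
    TQ B v v w = TQ B u u w := by
  obtain ⟨e, he, hue, hev⟩ : ∃ e : V, ‖e‖ = 1 ∧ P u e = e ∧ (inner ℝ e v : ℝ) = 0 := by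
    let f : LinearMap.range (P u) →ₗ[ℝ] ℝ := innerₗ V v ∘ₗ (LinearMap.range (P u)).subtype
    have h1 : LinearMap.ker f ≠ ⊥ := by
      apply LinearMap.ker_ne_bot_of_finrank_lt
      rw [hr u hu, finrank_self]
      norm_num
    obtain ⟨⟨r, hr1⟩, hr2, hr3⟩ := Submodule.exists_mem_ne_zero_of_ne_bot h1
    have hr0 : r ≠ 0 := fun h0 => hr3 (Subtype.ext h0)
    have hfr : (inner ℝ v r : ℝ) = 0 := hr2
    obtain ⟨z, hz⟩ := hr1
    have hPr : P u r = r := by rw [← hz, h.idem u z hu]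
    obtain ⟨c, hc, y, hy, hy1⟩ := exists_unit_smul hr0
    refine ⟨y, hy1, ?_, ?_⟩
    · rw [hy, map_smul] at hPr
      exact smul_right_injective V hc hPr
    · rw [hy, inner_smul_right] at hfr
      rw [real_inner_comm]
      exact (mul_eq_zero.1 hfr).resolve_left hc
  have h1 := hsame u e v hu he hue
  have h2 := hsame u e w hu he hue
  rw [← TQ_unit h hu, huv, hev, zero_smul, zero_add] at h1
  have h3 := hsame e v w he hv h1.symm
  rw [TQ_unit h hv, TQ_unit h hu, h2, h3]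

theorem TQ_OT (h : QData P B)
    (hr : ∀ u, ‖u‖ = 1 → finrank ℝ (LinearMap.range (P u)) = 7)
    (hsame : ∀ u u' w, ‖u‖ = 1 → ‖u'‖ = 1 → P u u' = u' →
      (inner ℝ u w : ℝ) • u + P u w = (inner ℝ u' w : ℝ) • u' + P u' w) : OT (TQ B) where
  comm a b w := by
    refine ext_inner_right ℝ fun w' => ?_
    rw [inner_TQ, inner_TQ, FF_apply, FF_apply, h.sym1 a b, real_inner_comm a b]
    ring
  symm a b w w' := by
    rw [inner_TQ, real_inner_comm, inner_TQ, FF_apply, FF_apply, h.sym2 a b, real_inner_comm w w']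
    ring
  pair a b c d := by
    rw [inner_TQ, inner_TQ, FF_apply, FF_apply, QData.pair4 h, real_inner_comm a c,
      real_inner_comm b d, real_inner_comm b c, real_inner_comm a d]
    ring
  idem u w := by
    rcases eq_or_ne u 0 with rfl | hu0
    · simp
    · obtain ⟨c, hc, y, rfl, hy⟩ := exists_unit_smul hu0
      have h1 : TQ B y y (TQ B y y w) = TQ B y y w := by
        rw [TQ_unit h hy, TQ_unit h hy, inner_add_right, inner_smul_right, inner_unit hy,
          real_inner_comm (P y w) y, h.perp y w hy, map_add, map_smul, Alg_P_self h hy,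
          h.idem y w hy, smul_zero, zero_add, mul_one, add_zero]
      simp only [map_smul, LinearMap.smul_apply, inner_smul_left, inner_smul_right, inner_unit hy,
        h1, RCLike.conj_to_real]
      module
  self u := by
    rcases eq_or_ne u 0 with rfl | hu0
    · simp
    · obtain ⟨c, hc, y, rfl, hy⟩ := exists_unit_smul hu0
      have h1 : TQ B y y y = y := by
        rw [TQ_unit h hy, Alg_P_self h hy, inner_unit hy, one_smul, add_zero]
      simp only [map_smul, LinearMap.smul_apply, inner_smul_left, inner_smul_right, inner_unit hy,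
        h1, RCLike.conj_to_real]
      module
  clos u v w huv := by
    rcases eq_or_ne u 0 with rfl | hu0
    · simp
    rcases eq_or_ne v 0 with rfl | hv0
    · simp
    obtain ⟨c, hc, y, rfl, hy⟩ := exists_unit_smul hu0
    obtain ⟨d, hd, z, rfl, hz⟩ := exists_unit_smul hv0
    have h1 : TQ B y y z = z := by
      simp only [map_smul, LinearMap.smul_apply, inner_smul_left, inner_smul_right,
        inner_unit hy, RCLike.conj_to_real] at huv
      have h2 : (c * c * d) • TQ B y y z = (c * c * d) • z := by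
        linear_combination (norm := module) huv
      exact smul_right_injective V (by positivity) h2
    have h2 := TQ_clos_unit' h hr hsame hy hz h1 w
    simp only [map_smul, LinearMap.smul_apply, inner_smul_left, inner_smul_right,
      inner_unit hy, inner_unit hz, RCLike.conj_to_real, h2]
    module

/-- the rank of `T u u` -/
theorem TQ_rank (h : QData P B) {l : ℕ}
    (hr : ∀ u, ‖u‖ = 1 → finrank ℝ (LinearMap.range (P u)) = l) {u : V} (hu : ‖u‖ = 1) :
    finrank ℝ (LinearMap.range (TQ B u u)) = l + 1 := by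
  have hu0 : u ≠ 0 := by
    rw [← norm_ne_zero_iff, hu]
    exact one_ne_zero
  have h1 : LinearMap.range (TQ B u u) = LinearMap.range (P u) ⊔ Submodule.span ℝ {u} := by
    apply le_antisymm
    · rintro _ ⟨w, rfl⟩
      rw [TQ_unit h hu, add_comm]
      exact Submodule.add_mem_sup (LinearMap.mem_range_self _ _)
        (Submodule.smul_mem _ _ (Submodule.mem_span_singleton_self u))
    · refine sup_le ?_ ?_
      · rintro _ ⟨w, rfl⟩
        refine ⟨P u w, ?_⟩
        rw [TQ_unit h hu, h.idem u w hu, real_inner_comm, h.perp u w hu, zero_smul, zero_add]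
      · rw [Submodule.span_singleton_le_iff_mem]
        refine ⟨u, ?_⟩
        rw [TQ_unit h hu, Alg_P_self h hu, inner_unit hu, one_smul, add_zero]
  have h2 : LinearMap.range (P u) ⊓ Submodule.span ℝ {u} = ⊥ := by
    rw [eq_bot_iff]
    rintro x ⟨⟨w, hw⟩, hx⟩
    obtain ⟨c, hc⟩ := Submodule.mem_span_singleton.1 hx
    have h3 := h.perp u w hu
    rw [hw, ← hc, real_inner_smul_left, inner_unit hu, mul_one] at h3
    rw [Submodule.mem_bot, ← hc, h3, zero_smul]
  have h3 := Submodule.finrank_sup_add_finrank_inf_eq (LinearMap.range (P u))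
    (Submodule.span ℝ {u})
  rw [h2, finrank_bot, add_zero, hr u hu, finrank_span_singleton hu0] at h3
  rw [h1, h3]

end

end

end Vale.Agent.P231Z
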