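import Vale.Agent.P231Z.Oct.Coord

/-! P231: complex slices for the operator form `T`. -/

set_option maxSynthPendingDepth 3
set_option linter.unusedSectionVars false

open Module Set

namespace Vale.Agent.P231Z

noncomputable section

open Vale.Agent.P231 Vale.Agent.P231.H512 Vale.Agent.P231.WR

variable {V : Type*} [NormedAddCommGroup V] [InnerProductSpace ℝ V]
  {T : V →ₗ[ℝ] V →ₗ[ℝ] V →ₗ[ℝ] V} {u₀ j : V}

/-- the complex structure of the slice -/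
def slJ (T : V →ₗ[ℝ] V →ₗ[ℝ] V →ₗ[ℝ] V) (u₀ j : V) : V →ₗ[ℝ] V :=
  (innerₗ V u₀).smulRight j - (innerₗ V j).smulRight u₀ +
    rho T u₀ j ∘ₗ (LinearMap.id - T u₀ u₀)

theorem slJ_apply (z : V) : slJ T u₀ j z = (inner ℝ u₀ z : ℝ) • j - (inner ℝ j z : ℝ) • u₀ +
    rho T u₀ j (z - T u₀ u₀ z) := rfl

/-- the slice -/
def slU (T : V →ₗ[ℝ] V →ₗ[ℝ] V →ₗ[ℝ] V) (u₀ j : V) : Submodule ℝ V :=
  LinearMap.ker (T u₀ u₀ - (innerₗ V u₀).smulRight u₀ - (innerₗ V j).smulRight j)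

theorem mem_slU {z : V} : z ∈ slU T u₀ j ↔
    T u₀ u₀ z = (inner ℝ u₀ z : ℝ) • u₀ + (inner ℝ j z : ℝ) • j := by
  show T u₀ u₀ z - (inner ℝ u₀ z : ℝ) • u₀ - (inner ℝ j z : ℝ) • j = 0 ↔ _
  rw [sub_sub, sub_eq_zero]

/-- the data of a slice -/
structure Sl (T : V →ₗ[ℝ] V →ₗ[ℝ] V →ₗ[ℝ] V) (u₀ j : V) : Prop where
  ot : OT T
  hu : (inner ℝ u₀ u₀ : ℝ) = 1
  hj : (inner ℝ j j : ℝ) = 1
  perp : (inner ℝ u₀ j : ℝ) = 0
  mem : T u₀ u₀ j = j

theorem Sl.self (s : Sl T u₀ j) : T u₀ u₀ u₀ = u₀ := by rw [s.ot.self, s.hu, one_smul]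

theorem Sl.perp' (s : Sl T u₀ j) : (inner ℝ j u₀ : ℝ) = 0 := by rw [real_inner_comm, s.perp]

theorem Sl.in_u (s : Sl T u₀ j) (α β : ℝ) {v : V} (hv : T u₀ u₀ v = 0) :
    (inner ℝ u₀ (α • u₀ + β • j + v) : ℝ) = α := by
  rw [inner_add_right, inner_add_right, real_inner_smul_right, real_inner_smul_right, s.hu, s.perp,
    s.ot.orthLW s.self hv]
  ring

theorem Sl.in_j (s : Sl T u₀ j) (α β : ℝ) {v : V} (hv : T u₀ u₀ v = 0) :
    (inner ℝ j (α • u₀ + β • j + v) : ℝ) = β := by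
  rw [inner_add_right, inner_add_right, real_inner_smul_right, real_inner_smul_right, s.hj,
    s.perp', s.ot.orthLW s.mem hv]
  ring

theorem Sl.proj (s : Sl T u₀ j) (α β : ℝ) {v : V} (hv : T u₀ u₀ v = 0) :
    T u₀ u₀ (α • u₀ + β • j + v) = α • u₀ + β • j := by
  rw [map_add, map_add, map_smul, map_smul, s.self, s.mem, hv, add_zero]

theorem Sl.mem_of (s : Sl T u₀ j) (α β : ℝ) {v : V} (hv : T u₀ u₀ v = 0) :
    α • u₀ + β • j + v ∈ slU T u₀ j := by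
  rw [mem_slU, s.proj α β hv, s.in_u α β hv, s.in_j α β hv]

theorem Sl.dec (s : Sl T u₀ j) {z : V} (hz : z ∈ slU T u₀ j) :
    ∃ (α β : ℝ) (v : V), T u₀ u₀ v = 0 ∧ z = α • u₀ + β • j + v := by
  refine ⟨inner ℝ u₀ z, inner ℝ j z, z - T u₀ u₀ z, ?_, ?_⟩
  · rw [map_sub, s.ot.idem, s.hu, one_smul, sub_self]
  · rw [← mem_slU.1 hz]
    abel

theorem Sl.J_dec (s : Sl T u₀ j) (α β : ℝ) {v : V} (hv : T u₀ u₀ v = 0) :
    slJ T u₀ j (α • u₀ + β • j + v) = (-β) • u₀ + α • j + rho T u₀ j v := by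
  rw [slJ_apply, s.proj α β hv, s.in_u α β hv, s.in_j α β hv, add_sub_cancel_left]
  module

theorem Sl.rho_mem (s : Sl T u₀ j) {v : V} (hv : T u₀ u₀ v = 0) :
    T u₀ u₀ (rho T u₀ j v) = 0 := s.ot.rho_mem s.hu hv s.mem

theorem Sl.rho_sq (s : Sl T u₀ j) {v : V} (hv : T u₀ u₀ v = 0) :
    rho T u₀ j (rho T u₀ j v) = -v := by
  rw [s.ot.rho_sq s.hu s.mem hv, s.perp, s.hj]
  module

theorem Sl.J_mem (s : Sl T u₀ j) (z : V) (hz : z ∈ slU T u₀ j) : slJ T u₀ j z ∈ slU T u₀ j := by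
  obtain ⟨α, β, v, hv, rfl⟩ := s.dec hz
  rw [s.J_dec α β hv]
  exact s.mem_of _ _ (s.rho_mem hv)

theorem Sl.J_sq (s : Sl T u₀ j) {z : V} (hz : z ∈ slU T u₀ j) :
    slJ T u₀ j (slJ T u₀ j z) = -z := by
  obtain ⟨α, β, v, hv, rfl⟩ := s.dec hz
  rw [s.J_dec α β hv, s.J_dec _ _ (s.rho_mem hv), s.rho_sq hv]
  module

theorem Sl.inner_dec (s : Sl T u₀ j) (α β α' β' : ℝ) {v v' : V} (hv : T u₀ u₀ v = 0)
    (hv' : T u₀ u₀ v' = 0) :
    (inner ℝ (α • u₀ + β • j + v) (α' • u₀ + β' • j + v') : ℝ) =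
      α * α' + β * β' + inner ℝ v v' := by
  rw [inner_add_left, inner_add_left, real_inner_smul_left, real_inner_smul_left,
    s.in_u α' β' hv', s.in_j α' β' hv', inner_add_right, inner_add_right, real_inner_smul_right,
    real_inner_smul_right, real_inner_comm u₀ v, real_inner_comm j v, s.ot.orthLW s.self hv,
    s.ot.orthLW s.mem hv]
  ring

theorem Sl.J_isom (s : Sl T u₀ j) {z z' : V} (hz : z ∈ slU T u₀ j) (hz' : z' ∈ slU T u₀ j) :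
    (inner ℝ (slJ T u₀ j z) (slJ T u₀ j z') : ℝ) = inner ℝ z z' := by
  obtain ⟨α, β, v, hv, rfl⟩ := s.dec hz
  obtain ⟨α', β', v', hv', rfl⟩ := s.dec hz'
  have h1 := s.ot.rho_adj s.hu j hv (s.rho_mem hv')
  rw [bar_im s.perp', map_neg, LinearMap.neg_apply, s.rho_sq hv', neg_neg] at h1
  rw [s.J_dec α β hv, s.J_dec α' β' hv', s.inner_dec _ _ _ _ (s.rho_mem hv) (s.rho_mem hv'),
    s.inner_dec _ _ _ _ hv hv', h1]
  ring

theorem Sl.J_fib (s : Sl T u₀ j) {z : V} (hz : z ∈ slU T u₀ j) :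
    T z z (slJ T u₀ j z) = (inner ℝ z z : ℝ) • slJ T u₀ j z := by
  obtain ⟨α, β, v, hv, rfl⟩ := s.dec hz
  rw [s.J_dec α β hv]
  have h0 : ∀ a b : ℝ, T u₀ u₀ (a • u₀ + b • j) = a • u₀ + b • j := fun a b => by
    rw [map_add, map_smul, map_smul, s.self, s.mem]
  refine s.ot.key3 s.hu (h0 α β) (h0 _ _) hv s.mem fun y hy => ?_
  simp only [map_add, map_smul, LinearMap.add_apply, LinearMap.smul_apply, s.ot.rho_one s.hu hy,
    s.rho_sq hy]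
  module

/-- **a complex slice through two vectors in general position** -/
theorem OT.exists_slice [FiniteDimensional ℝ V] (h : OT T) (hu : (inner ℝ u₀ u₀ : ℝ) = 1) {w : V}
    (h1 : T u₀ u₀ w ≠ (inner ℝ u₀ w : ℝ) • u₀) (h2 : T u₀ u₀ w ≠ w) :
    ∃ (U : Submodule ℝ V) (J : U →ₗ[ℝ] U) (u' w' : U), OCS J ∧ (u' : V) = u₀ ∧ (w' : V) = w ∧
      (∀ z y : U, ‖z‖ = 1 → (inner ℝ (J z) y : ℝ) ^ 2 ≤ inner ℝ (T z z y) (y : V)) ∧
      (inner ℝ (J u') w' : ℝ) ≠ 0 ∧ (∀ a b : ℝ, w' ≠ a • u' + b • J u') ∧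
      (inner ℝ (T u₀ u₀ w) w : ℝ) = (inner ℝ u₀ w : ℝ) ^ 2 + (inner ℝ (J u') w' : ℝ) ^ 2 := by
  have hself : T u₀ u₀ u₀ = u₀ := by rw [h.self, hu, one_smul]
  obtain ⟨c, hc, j, hj, hj1⟩ := exists_unit_smul (sub_ne_zero.2 h1)
  have e1 : T u₀ u₀ j = j := by
    have e2 := congrArg (T u₀ u₀) hj
    rw [map_sub, h.idem, hu, one_smul, map_smul, hself, hj, map_smul] at e2
    exact (smul_right_injective V hc e2).symm
  have e3 : (inner ℝ u₀ j : ℝ) = 0 := by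
    have e2 := congrArg (fun x => (inner ℝ u₀ x : ℝ)) hj
    simp only [inner_sub_right, real_inner_smul_right] at e2
    rw [← h.symm, hself, hu, mul_one, sub_self] at e2
    exact (mul_eq_zero.1 e2.symm).resolve_left hc
  have s : Sl T u₀ j := ⟨h, hu, inner_unit hj1, e3, e1⟩
  have e4 : T u₀ u₀ w = (inner ℝ u₀ w : ℝ) • u₀ + c • j := by rw [← hj, add_sub_cancel]
  have e5 : (inner ℝ j w : ℝ) = c := by
    rw [← e1, h.symm, e4, inner_add_right, real_inner_smul_right, real_inner_smul_right, s.perp',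
      s.hj]
    ring
  have hw : w ∈ slU T u₀ j := by rw [mem_slU, e5, e4]
  have hu' : u₀ ∈ slU T u₀ j := by rw [mem_slU, hself, hu, s.perp', one_smul, zero_smul, add_zero]
  let J : slU T u₀ j →ₗ[ℝ] slU T u₀ j := (slJ T u₀ j).restrict s.J_mem
  have hJ : ∀ z : slU T u₀ j, (J z : V) = slJ T u₀ j z := fun z => rfl
  have e6 : slJ T u₀ j u₀ = j := by
    rw [slJ_apply, hself, hu, s.perp', sub_self, map_zero, one_smul, zero_smul, sub_zero, add_zero]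
  have e7 : (inner ℝ (J ⟨u₀, hu'⟩) (⟨w, hw⟩ : slU T u₀ j) : ℝ) = c := by
    show (inner ℝ (slJ T u₀ j u₀) w : ℝ) = c
    rw [e6, e5]
  refine ⟨slU T u₀ j, J, ⟨u₀, hu'⟩, ⟨w, hw⟩, ⟨fun z => Subtype.ext (s.J_sq z.2),
    fun z z' => s.J_isom z.2 z'.2⟩, rfl, rfl, fun z y hz => ?_, ?_, fun a b hab => ?_, ?_⟩
  · have hz1 : (inner ℝ (z : V) (z : V) : ℝ) = 1 := inner_unit (V := V) hz
    have e8 := s.J_fib z.2
    rw [hz1, one_smul] at e8
    exact h.lower hz1 ((s.J_isom z.2 z.2).trans hz1) e8 y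
  · rw [e7]
    exact hc
  · apply h2
    have e8 : w = a • u₀ + b • slJ T u₀ j u₀ := congrArg Subtype.val hab
    rw [e6] at e8
    rw [e8, map_add, map_smul, map_smul, hself, e1]
  · rw [e7, e4, inner_add_left, real_inner_smul_left, real_inner_smul_left, e5]
    ring

end

end Vale.Agent.P231Z
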